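import Vale.Agent.P027H.Inv
import Vale.Agent.P027H.Add

/-!
# P014 Y, block INT: points of order three and the isogeny of degree three
-/

open Finset Vale.Agent.P027H Filter Topology

namespace Vale.Agent.P014Y.C.In.Od

variable {Λ Λ' : Submodule ℤ ℂ} {p q : ℂ}

theorem dup (h : IsLat Λ) (hq : q ∉ Λ) (h2 : 2 * q ∉ Λ) : wp Λ (2 * q) =
    ((6 * wp Λ q ^ 2 - g2 Λ / 2) / dwp Λ q) ^ 2 / 4 - 2 * wp Λ q := by
  have d0 : dwp Λ q ≠ 0 := fun e => h2 ((h.dwp_eq_zero hq).1 e)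
  have t3 := (hasDerivAt_iff_tendsto_slope.1 (h.hasDerivAt_dwp hq)).div
    (hasDerivAt_iff_tendsto_slope.1 (h.hasDerivAt_wp hq)) d0
  have c1 : Tendsto (wp Λ) (𝓝[≠] q) (𝓝 (wp Λ q)) :=
    tendsto_nhdsWithin_of_tendsto_nhds (h.analyticAt_wp hq).continuousAt
  have c2 : Tendsto (fun z => wp Λ (z + q)) (𝓝[≠] q) (𝓝 (wp Λ (2 * q))) := by
    refine tendsto_nhdsWithin_of_tendsto_nhds ((h.analyticAt_wp h2).continuousAt.tendsto.comp ?_)
    rw [two_mul]
    exact (continuous_add_const q).tendsto q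
  have c3 := (((t3.pow 2).div_const 4).sub c1).sub_const (wp Λ q)
  refine (tendsto_nhds_unique c2 (c3.congr' ?_)).trans (by ring)
  filter_upwards [nhdsWithin_le_nhds (h.notMem_nhds hq), h.ev_ne hq (wp Λ q), self_mem_nhdsWithin]
    with z a b c
  rw [(h.add a hq b).2.1, aX, sl, Pi.div_apply, slope_def_field, slope_def_field,
    div_div_div_cancel_right₀ (sub_ne_zero.2 c)]

/-- the slope of the tangent -/
noncomputable def uu (Λ : Submodule ℤ ℂ) (q : ℂ) : ℂ := (6 * wp Λ q ^ 2 - g2 Λ / 2) / dwp Λ q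

/-- the second form of weight one -/
noncomputable def gm (Λ : Submodule ℤ ℂ) (q p : ℂ) : ℂ := -dwp Λ q / (3 * (wp Λ p - wp Λ q))

theorem usq (h : IsLat Λ) (hq : q ∉ Λ) (q3 : 3 * q ∈ Λ) : dwp Λ q ≠ 0 ∧ uu Λ q ^ 2 = 12 * wp Λ q := by
  have h2 : 2 * q ∉ Λ := fun e => hq (mem_of_eq (sub_mem q3 e) (by ring))
  have := dup h hq h2
  rw [h.wp_congr' (z := 2 * q) (w := q) (mem_of_eq q3 (by ring))] at this
  exact ⟨fun e => h2 ((h.dwp_eq_zero hq).1 e), by rw [uu]; linear_combination -4 * this⟩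

theorem reps (mem : ∀ z, z ∈ Λ' ↔ z ∈ Λ ∨ z - p ∈ Λ ∨ z + p ∈ Λ) (hp : p ∉ Λ) (p3 : 3 * p ∈ Λ) :
    Reps ![0, p, -p] Λ Λ' := by
  have h2 : p + p ∉ Λ := fun e => hp (mem_of_eq (sub_mem p3 e) (by ring))
  have h3 : -p - p ∉ Λ := fun e => h2 (mem_of_eq (neg_mem e) (by ring))
  refine ⟨fun z hz => (mem z).2 (.inl hz), fun i => ?_, fun z hz => ?_, fun i k => ?_⟩
  · fin_cases i
    · exact zero_mem _
    · exact (mem _).2 (.inr (.inl (mem_of_eq (zero_mem _) (sub_self _))))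
    · exact (mem _).2 (.inr (.inr (mem_of_eq (zero_mem _) (neg_add_cancel _))))
  · rcases (mem z).1 hz with e | e | e
    · exact ⟨0, by simpa using e⟩
    · exact ⟨1, e⟩
    · exact ⟨2, by simpa using e⟩
  · fin_cases i <;> fin_cases k <;> simp [hp, h2, h3]

theorem hom3 (h : IsLat Λ) (h' : IsLat Λ') (mem : ∀ z, z ∈ Λ' ↔ z ∈ Λ ∨ z - p ∈ Λ ∨ z + p ∈ Λ)
    (hp : p ∉ Λ) (p3 : 3 * p ∈ Λ) (hq : q ∉ Λ') (q3 : 3 * q ∈ Λ) :
    wp Λ p - wp Λ q ≠ 0 ∧
    dwp Λ q = gm Λ q p * (uu Λ q ^ 2 - 9 * uu Λ q * gm Λ q p + 27 * gm Λ q p ^ 2) ∧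
    12 * wp Λ' q = 9 * (uu Λ q - 6 * gm Λ q p) ^ 2 ∧ dwp Λ' q = 27 * gm Λ q p ^ 3 := by
  have q0 : q ∉ Λ := fun e => hq ((mem q).2 (.inl e))
  have q1 : q - p ∉ Λ := fun e => hq ((mem q).2 (.inr (.inl e)))
  have q2 : q + p ∉ Λ := fun e => hq ((mem q).2 (.inr (.inr e)))
  have ne := h.wp_ne q0 hp q1 q2
  have X0 : wp Λ p - wp Λ q ≠ 0 := sub_ne_zero.2 ne.symm
  obtain ⟨a0, e1⟩ := usq h q0 q3
  obtain ⟨y0, e2⟩ := usq h hp p3
  have R := reps mem hp p3
  have w1 := R.wp h h' q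
  have w2 := R.dwp h h' q
  obtain ⟨-, s1, s2⟩ := h.add q0 hp ne
  obtain ⟨-, s3, s4⟩ := h.add q0 (w := -p) (fun e => hp (neg_mem_iff.1 e)) (by rwa [h.wp_neg])
  simp only [Fin.sum_univ_three, Matrix.cons_val_zero, Matrix.cons_val_one, Matrix.cons_val,
    sub_zero, sub_neg_eq_add, h.wp_mem (zero_mem _), h.wp_neg] at w1 w2
  rw [← sub_eq_add_neg, h.wp_neg, h.dwp_neg] at s3 s4
  rw [s1, s3] at w1
  rw [s2, s4] at w2
  have o1 := h.ode q0
  have o2 := h.ode hp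
  have g : g2 Λ = 12 * wp Λ q ^ 2 - 2 * uu Λ q * dwp Λ q := by rw [uu]; field_simp; ring
  rw [uu, div_pow, div_eq_iff (pow_ne_zero 2 y0)] at e2
  have a1 : dwp Λ q = -3 * gm Λ q p * (wp Λ p - wp Λ q) := by rw [gm]; field_simp
  have k1 : sl (wp Λ q) (dwp Λ q) (wp Λ p) (dwp Λ p) =
      3 * gm Λ q p + dwp Λ p / (wp Λ p - wp Λ q) := by
    rw [sl, div_eq_iff (sub_ne_zero.2 ne)]; field_simp
    linear_combination (wp Λ p - wp Λ q) * a1
  have k2 : sl (wp Λ q) (dwp Λ q) (wp Λ p) (-dwp Λ p) =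
      3 * gm Λ q p - dwp Λ p / (wp Λ p - wp Λ q) := by
    rw [sl, div_eq_iff (sub_ne_zero.2 ne)]; field_simp
    linear_combination (wp Λ p - wp Λ q) * a1
  simp only [aY, aX, k1, k2] at w1 w2
  have y1 : dwp Λ p = dwp Λ p / (wp Λ p - wp Λ q) * (wp Λ p - wp Λ q) := by field_simp
  generalize dwp Λ p / (wp Λ p - wp Λ q) = η at w1 w2 y1
  obtain ⟨X, hX⟩ : ∃ X, wp Λ p = wp Λ q + X := ⟨wp Λ p - wp Λ q, by ring⟩
  have e : wp Λ q = uu Λ q ^ 2 / 12 := by linear_combination -e1 / 12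
  generalize uu Λ q = u, gm Λ q p = γ at *
  rw [hX, add_sub_cancel_left] at X0 a1 y1
  rw [y1] at o2 e2
  rw [hX] at o2 e2 w1 w2
  rw [a1] at o1 g w2
  rw [g, e] at o1 o2 e2
  rw [e] at w1 w2
  have f1 : η ^ 2 = 4 * X + u ^ 2 - 6 * u * γ + 9 * γ ^ 2 :=
    mul_left_cancel₀ (pow_ne_zero 2 X0) (by linear_combination o2 - o1)
  have f2 : 3 * X + (u ^ 2 - 9 * u * γ + 27 * γ ^ 2) = 0 :=
    mul_left_cancel₀ (pow_ne_zero 3 X0) (by
      linear_combination (-1 / 4) * e2 - (X + u ^ 2 / 12) * 3 * X ^ 2 * f1)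
  refine ⟨by rw [hX, add_sub_cancel_left]; exact X0, by linear_combination a1 - γ * f2,
    by linear_combination 12 * w1 + 6 * f1 - 8 * f2, by
      linear_combination w2 - 9 / 2 * γ * f1 - 3 * γ * f2⟩

variable {V : AbsoluteValue ℂ ℝ}

theorem v_add (na : IsNonarchimedean V) {a b : ℂ} (h : V b < V a) : V (a + b) = V a := by
  refine le_antisymm ((na a b).trans (max_le le_rfl h.le)) (not_lt.1 fun k => ?_)
  have := na (a + b) (-b)
  rw [add_neg_cancel_right, V.map_neg] at this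
  exact (max_lt k h).not_ge this

theorem orbit (na : IsNonarchimedean V) (h3 : V 3 < 1) {u γ : ℕ → ℂ} (g0 : ∀ a, γ a ≠ 0)
    (e1 : ∀ a, u (a + 1) ^ 2 = 9 * (u a - 6 * γ a) ^ 2)
    (e2 : ∀ a, γ (a + 1) * (u (a + 1) ^ 2 - 9 * u (a + 1) * γ (a + 1) + 27 * γ (a + 1) ^ 2) =
      27 * γ a ^ 3) {h : ℕ} (hh : 0 < h) {c : ℝ} (c1 : c < 1)
    (p1 : ∀ a, V (u (a + h)) = c * V (u a)) (p2 : ∀ a, V (γ (a + h)) = c * V (γ a)) (a : ℕ) :
    V (u a) = V (γ a) := by
  have w0 : 0 < V 3 := V.pos (by norm_num)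
  have G : ∀ a, 0 < V (γ a) := fun a => V.pos (g0 a)
  have v2 : V 2 = 1 := by
    rw [show (2 : ℂ) = -1 + 3 by norm_num, v_add na (by simpa using h3)]; simp
  have v9 : V 9 = V 3 ^ 2 := by rw [← map_pow]; norm_num
  have v27 : V 27 = V 3 ^ 3 := by rw [← map_pow]; norm_num
  have v6 : V (-6) = V 3 := by rw [V.map_neg, show (6 : ℂ) = 2 * 3 by norm_num, map_mul, v2, one_mul]
  obtain ⟨r, hr⟩ : ∃ r : ℕ → ℂ, ∀ a, u a = r a * γ a := ⟨fun a => u a / γ a, fun a => by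
    rw [div_mul_cancel₀ _ (g0 a)]⟩
  obtain ⟨t, ht⟩ : ∃ t : ℕ → ℂ, ∀ a, γ (a + 1) = t a * γ a := ⟨fun a => γ (a + 1) / γ a, fun a => by
    rw [div_mul_cancel₀ _ (g0 a)]⟩
  have f1 : ∀ a, V (t a) * V (r (a + 1)) = V 3 * V (r a + -6) := fun a => by
    have : (t a * r (a + 1)) ^ 2 = (3 * (r a + -6)) ^ 2 := mul_left_cancel₀ (pow_ne_zero 2 (g0 a)) (by
      have := e1 a
      rw [hr, hr, ht] at this
      linear_combination this)
    have := congrArg V this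
    rwa [map_pow, map_pow, pow_left_inj₀ (V.nonneg _) (V.nonneg _) two_ne_zero, map_mul,
      map_mul] at this
  have f2 : ∀ a, V (t a) ^ 3 * V (r (a + 1) ^ 2 + -(9 * r (a + 1)) + 27) = V 3 ^ 3 := fun a => by
    rw [← v27, ← map_pow, ← map_mul]
    refine congrArg V (mul_left_cancel₀ (pow_ne_zero 3 (g0 a)) ?_)
    have := e2 a
    rw [hr, ht] at this
    linear_combination this
  have per : ∀ a, V (r (a + h)) = V (r a) := fun a => by
    have c0 : c ≠ 0 := fun e => (G (a + h)).ne' (by rw [p2, e, zero_mul])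
    have := p1 a
    rw [hr, hr, map_mul, map_mul, p2] at this
    exact mul_right_cancel₀ (mul_ne_zero c0 (G a).ne') (by linear_combination this)
  have w2 : V 3 ^ 2 < V 3 := by nlinarith
  have w3 : V 3 ^ 3 < V 3 ^ 2 := by nlinarith
  have up : ∀ a, V 3 < V (r (a + 1)) → V 3 < V (r a) ∧ V (r (a + 1)) = V (r a) ^ 3 := fun a k => by
    have n1 : V (r (a + 1) ^ 2 + -(9 * r (a + 1))) = V (r (a + 1)) ^ 2 := by
      rw [v_add na, map_pow]
      rw [V.map_neg, map_mul, map_pow, v9]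
      nlinarith
    have n2 := f2 a
    rw [v_add na (by rw [n1, v27]; nlinarith), n1] at n2
    have n3 : V (r (a + 1)) = V (r a + -6) ^ 3 := mul_left_cancel₀ (pow_pos w0 3).ne' (by
      rw [← mul_pow, ← f1, mul_pow]
      linear_combination -V (r (a + 1)) * n2)
    have n4 : V 3 < V (r a + -6) := not_le.1 fun l => by
      have := pow_le_pow_left₀ (V.nonneg _) l 3
      linarith
    have n5 : V (r a) = V (r a + -6) := by
      rw [← v_add na (a := r a + -6) (b := -(-6)) (by rwa [V.map_neg, v6])]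
      congr 1
      ring
    rw [n5]
    exact ⟨n4, n3⟩
  rw [hr, map_mul]
  suffices V (r a) = 1 by rw [this, one_mul]
  by_cases H : ∃ b, V 3 < V (r b)
  · obtain ⟨b, hb⟩ := H
    have b1 : ∀ k, V (r (b + k * h)) = V (r b) := fun k => by
      induction k with
      | zero => simp
      | succ k ih => rw [add_mul, one_mul, ← add_assoc, per, ih]
    have b2 : ∀ n a, V 3 < V (r (a + n)) → V 3 < V (r a) := fun n => by
      induction n with
      | zero => exact fun _ k => k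
      | succ n ih => exact fun a k => ih a (up _ k).1
    have b3 : ∀ a, V 3 < V (r a) := fun a => by
      obtain ⟨n, hn⟩ := Nat.exists_eq_add_of_le (show a ≤ b + a * h by nlinarith)
      exact b2 n a (by rw [← hn, b1]; exact hb)
    have b4 : ∀ n, V (r (a + n)) = V (r a) ^ 3 ^ n := fun n => by
      induction n with
      | zero => simp
      | succ n ih => rw [← add_assoc, (up _ (b3 _)).2, ih, ← pow_mul, pow_succ]
    have := b4 h
    have q := w0.trans (b3 a)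
    obtain ⟨n, hn⟩ : ∃ n, 3 ^ h = n + 2 := ⟨3 ^ h - 2, by
      have := Nat.pow_le_pow_right (show 0 < 3 by norm_num) hh; omega⟩
    rwa [per, hn, pow_succ, eq_comm, mul_eq_right₀ q.ne',
      pow_eq_one_iff_of_nonneg q.le (by omega)] at this
  push Not at H
  have t1 : ∀ a, V (t a) = 1 := fun a => by
    have n0 := V.nonneg (r (a + 1))
    have n1 : V (r a + -6) ≤ V 3 := (na _ _).trans (max_le (H a) v6.le)
    have n2 : V (-(9 * r (a + 1))) ≤ V 3 ^ 2 * V (r (a + 1)) := by rw [V.map_neg, map_mul, v9]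
    have n3 : V (r (a + 1) ^ 2 + -(9 * r (a + 1)) + 27) ≤ V 3 ^ 2 :=
      (na _ _).trans (max_le ((na _ _).trans (max_le
        (by rw [map_pow]; exact pow_le_pow_left₀ n0 (H _) 2)
        (n2.trans (mul_le_of_le_one_right (by positivity) ((H _).trans h3.le))))) (v27 ▸ w3.le))
    have n4 : V 3 ≤ V (t a) ^ 3 := le_of_mul_le_mul_right (a := V 3 ^ 2) (by
      have := mul_le_mul_of_nonneg_left n3 (pow_nonneg (V.nonneg (t a)) 3)
      rw [f2] at this
      linarith) (by positivity)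
    have n5 : V (r (a + 1)) ^ 3 ≤ V 3 ^ 5 := le_of_mul_le_mul_left (a := V 3) (by
      have := pow_le_pow_left₀ (by positivity) (mul_le_mul_of_nonneg_left n1 w0.le) 3
      rw [← f1, mul_pow] at this
      have := mul_le_mul_of_nonneg_right n4 (pow_nonneg n0 3)
      linarith) w0
    have n6 : V (r (a + 1)) ^ 2 < V 3 ^ 3 := lt_of_pow_lt_pow_left₀ 3 (by positivity) (by
      have := pow_le_pow_left₀ (pow_nonneg n0 3) n5 2
      have l : V 3 ^ 10 < V 3 ^ 9 := pow_lt_pow_right_of_lt_one₀ w0 h3 (by norm_num)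
      calc _ = (V (r (a + 1)) ^ 3) ^ 2 := by ring
        _ ≤ _ := this
        _ = V 3 ^ 10 := by ring
        _ < _ := l
        _ = _ := by ring)
    have n7 : V (r (a + 1)) < V 3 := lt_of_pow_lt_pow_left₀ 2 w0.le (n6.trans w3)
    have n8 := f2 a
    rw [add_comm, v_add na ((na _ _).trans_lt (max_lt (by rw [map_pow, v27]; exact n6)
      (n2.trans_lt (by rw [v27]; nlinarith)))), v27, mul_eq_right₀ (pow_pos w0 3).ne'] at n8
    exact (pow_eq_one_iff_of_nonneg (V.nonneg _) (by norm_num)).1 n8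
  have t2 : ∀ n, V (γ n) = V (γ 0) := fun n => by
    induction n with
    | zero => rfl
    | succ n ih => rw [ht, map_mul, t1, one_mul, ih]
  have := p2 0
  rw [t2, eq_comm, mul_eq_right₀ (G 0).ne'] at this
  exact absurd this c1.ne

end Vale.Agent.P014Y.C.In.Od
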