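import Vale.Agent.P014Y.C.In.St
import Vale.Agent.P014Y.C.In.Od0

/-!
# P014 Y, block INT: the tower of a CM lattice with three split
-/

open Finset Vale.Agent.P027H

namespace Vale.Agent.P014Y.C.In

variable {O : Type} [CommRing O] {j : O →+* ℂ} {P P' : Ideal O} {Λ : Submodule ℤ ℂ}

namespace Thr

variable (T : Thr j P P')
include T

theorem symm : Thr j P' P :=
  ⟨by rw [mul_comm, T.PP'], by rw [sup_comm, T.cop], T.cyc', T.cyc, T.ol', T.ol⟩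

theorem mul3 {z : ℂ} (hz : z ∈ col j P Λ) : 3 * z ∈ Λ := by
  have := hz 3 (Ideal.mul_le_left (T.PP' ▸ Ideal.mem_span_singleton_self 3))
  rwa [map_ofNat] at this

theorem tri (hΛ : OLat j Λ) {z w : ℂ} (hz : z ∈ col j P Λ) (hw : w ∈ col j P Λ) (hw' : w ∉ Λ) :
    z ∈ Λ ∨ z - w ∈ Λ ∨ z + w ∈ Λ := by
  obtain ⟨u, hu, -, hk⟩ := T.cyc Λ hΛ
  have key : ∀ z ∈ col j P Λ, z ∈ Λ ∨ z - u ∈ Λ ∨ z + u ∈ Λ := fun z hz => by
    obtain ⟨k, e⟩ := hk z hz
    obtain ⟨l, rfl | rfl | rfl⟩ : ∃ l, k = 3 * l ∨ k = 3 * l + 1 ∨ k = 3 * l - 1 :=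
      ⟨(k + 1) / 3, by omega⟩
    all_goals have := add_mem e (int_mul_mem l (T.mul3 hu))
    exacts [.inl (mem_of_eq this (by push_cast; ring)),
      .inr (.inl (mem_of_eq this (by push_cast; ring))),
      .inr (.inr (mem_of_eq this (by push_cast; ring)))]
  rcases (key w hw).resolve_left hw' with a | a <;> rcases key z hz with b | b | b
  exacts [.inl b, .inr (.inl (mem_of_eq (sub_mem b a) (by ring))),
    .inr (.inr (mem_of_eq (add_mem b a) (by ring))), .inl b,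
    .inr (.inr (mem_of_eq (add_mem b a) (by ring))), .inr (.inl (mem_of_eq (sub_mem b a) (by ring)))]

end Thr

namespace Od

theorem sc {V : AbsoluteValue ℂ ℝ} {Λ' : Submodule ℤ ℂ} {c q q' p p' : ℂ} (H : Hom c Λ' Λ)
    (h : IsLat Λ) (hq : c * q' - q ∈ Λ ∨ c * q' + q ∈ Λ) (hp : c * p' - p ∈ Λ ∨ c * p' + p ∈ Λ) :
    V (uu Λ' q') = V c * V (uu Λ q) ∧ V (gm Λ' q' p') = V c * V (gm Λ q p) := by
  have c0 := H.1
  have w : ∀ {q q'}, c * q' - q ∈ Λ ∨ c * q' + q ∈ Λ → wp Λ' q' = c ^ 2 * wp Λ q := fun k => by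
    rw [← k.elim h.wp_congr h.wp_congr', H.wp]; field_simp
  obtain ⟨s, s1, w3⟩ : ∃ s, V s = 1 ∧ dwp Λ' q' = s * c ^ 3 * dwp Λ q := by
    rcases hq with k | k
    · exact ⟨1, map_one V, by rw [← h.dwp_congr k, H.dwp]; field_simp⟩
    · exact ⟨-1, by simp, by
        rw [neg_mul, neg_mul, ← mul_neg, ← h.dwp_congr' k, H.dwp]; field_simp⟩
  have s0 : s ≠ 0 := fun e => by simp [e] at s1
  have g : g2 Λ' = c ^ 4 * g2 Λ := by rw [H.g2]; field_simp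
  constructor
  · rw [show uu Λ' q' = s⁻¹ * (c * uu Λ q) by
      rw [uu, uu, w hq, w3, g, div_eq_mul_inv _ (_ * _), div_eq_mul_inv _ (dwp _ _), mul_inv]
      generalize (dwp Λ q)⁻¹ = x
      field_simp, map_mul, map_mul, map_inv₀, s1, inv_one, one_mul]
  · rw [show gm Λ' q' p' = s * (c * gm Λ q p) by
      rw [gm, gm, w hq, w hp, w3, ← mul_sub, mul_left_comm, div_eq_mul_inv, div_eq_mul_inv, mul_inv]
      generalize (3 * (wp Λ p - wp Λ q))⁻¹ = x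
      field_simp, map_mul, map_mul, s1, one_mul]

theorem sv_eq {q p : ℂ} (h1 : dwp Λ q ≠ 0) :
    sv Λ q p = uu Λ q / gm Λ q p := by
  rw [sv, uu, gm]
  field_simp
  ring

variable (T : Thr j P P') (hΛ : OLat j Λ)
include T hΛ

omit hΛ in
theorem cop (a : ℕ) : P ^ a ⊔ P' = ⊤ := Ideal.isCoprime_iff_sup_eq.1
  (Ideal.isCoprime_iff_sup_eq.2 T.cop).pow_left

omit T in
theorem c0 : col j (P ^ 0) Λ = Λ := by
  ext z
  exact ⟨fun h => by simpa using h 1 (by simp), fun h => hΛ.le_col _ h⟩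

omit T hΛ in
theorem cs (a : ℕ) : col j (P ^ (a + 1)) Λ = col j P (col j (P ^ a) Λ) := by rw [col_col, pow_succ']

omit T hΛ in
theorem cm {z : ℂ} (a : ℕ) : z ∈ col j (P ^ (a + 1)) Λ ↔ z ∈ col j P (col j (P ^ a) Λ) := by rw [cs]

theorem ol (a : ℕ) : OLat j (col j (P ^ a) Λ) := by
  induction a with
  | zero => rwa [c0 hΛ]
  | succ a ih => rw [cs]; exact T.ol _ ih

theorem qn (a : ℕ) : pt j P' Λ ∉ col j (P ^ a) Λ := fun e =>
  (T.cyc'.pt hΛ).2 (col_inf (cop T a) e (T.cyc'.pt hΛ).1)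

theorem ex_t : ∃ t : ℕ → ℂ, t 0 = 0 ∧ ∀ a, t (a + 1) ∈ col j (P ^ (a + 1)) Λ ∧
    t (a + 1) ∉ col j (P ^ a) Λ ∧ 3 * t (a + 1) - t a ∈ Λ := by
  choose x hx y hy e using fun a => Submodule.mem_sup.1 (cop T a ▸ Submodule.mem_top : (1 : O) ∈ P ^ a ⊔ P')
  let s : ℕ → ℂ := fun a => a.rec (pt j P Λ) fun a s => j (y (a + 1)) * (s / 3)
  have d : ∀ a, s a ∈ col j (P ^ (a + 1)) Λ → 3 * s (a + 1) - s a ∈ Λ := fun a h => by
    have := congrArg j (e (a + 1))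
    rw [map_add, map_one] at this
    exact mem_of_eq (neg_mem (h _ (hx _))) (by
      show 3 * (j (y (a + 1)) * (s a / 3)) - s a = _
      linear_combination s a * this)
  have k : ∀ a, s a ∈ col j (P ^ (a + 1)) Λ ∧ s a ∉ col j (P ^ a) Λ := fun a => by
    induction a with
    | zero => rw [cs, c0 hΛ]; exact T.cyc.pt hΛ
    | succ a ih =>
      refine ⟨(cm _).2 fun c hc => ?_, fun h => ih.2 ?_⟩
      · obtain ⟨u, hu⟩ := Ideal.mem_span_singleton'.1 (T.PP' ▸ Ideal.mul_mem_mul hc (hy (a + 1)))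
        have := congrArg j hu
        rw [map_mul, map_mul, map_ofNat] at this
        exact mem_of_eq ((ol T hΛ _).2 u _ ih.1) (by
          show j c * (j (y (a + 1)) * (s a / 3)) = _
          linear_combination (-s a / 3) * this)
      · rw [cs] at h
        exact mem_of_eq (sub_mem (T.mul3 h) (hΛ.le_col _ (d a ih.1))) (by ring)
  refine ⟨fun a => a.casesOn 0 s, rfl, fun a => ⟨(k a).1, (k a).2, ?_⟩⟩
  cases a with
  | zero => exact mem_of_eq (T.mul3 (T.cyc.pt hΛ).1) (sub_zero _)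
  | succ a => exact d a (k a).1

variable {h : ℕ} {π : O} (hP : P ^ h = Ideal.span {π}) (h0 : j π ≠ 0)
include hP h0

theorem hom (a : ℕ) : Hom (j π) (col j (P ^ (a + h)) Λ) (col j (P ^ a) Λ) :=
  ⟨h0, fun z => by rw [add_comm, pow_add, ← col_col, hP, (ol T hΛ a).col_span]⟩

theorem piq (a : ℕ) : j π * pt j P' Λ - pt j P' Λ ∈ col j (P ^ a) Λ ∨
    j π * pt j P' Λ + pt j P' Λ ∈ col j (P ^ a) Λ := by
  have m := col_mono (hΛ.le_col (P ^ a)) P' (T.cyc'.pt hΛ).1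
  exact (T.symm.tri (ol T hΛ a) ((T.ol' _ (ol T hΛ a)).2 π _ m) m (qn T hΛ a)).resolve_left
    fun e => qn T hΛ _ (((hom T hΛ hP h0 a).2 _).2 e)

theorem tw {V : AbsoluteValue ℂ ℝ} (na : IsNonarchimedean V) (h3 : V 3 < 1) (hh : 0 < h)
    (hπ : V (j π) < 1) : ∃ t, Tw V (fun a => col j (P ^ a) Λ) t (pt j P' Λ) := by
  obtain ⟨t, t0, ht⟩ := ex_t T hΛ
  have q1 := (T.cyc'.pt hΛ).1
  have o := ol T hΛ
  have m1 : ∀ a, t (a + 1) ∈ col j P (col j (P ^ a) Λ) := fun a => (cm a).1 (ht a).1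
  have mem : ∀ a z, z ∈ col j (P ^ (a + 1)) Λ ↔ z ∈ col j (P ^ a) Λ ∨
      z - t (a + 1) ∈ col j (P ^ a) Λ ∨ z + t (a + 1) ∈ col j (P ^ a) Λ := fun a z => by
    refine ⟨fun hz => T.tri (o a) ((cm a).1 hz) (m1 a) (ht a).2.1, ?_⟩
    have le : col j (P ^ a) Λ ≤ col j (P ^ (a + 1)) Λ := fun _ h => (cm a).2 ((o a).le_col P h)
    rintro (e | e | e)
    exacts [le e, mem_of_eq (add_mem (le e) (ht a).1) (by ring),
      mem_of_eq (sub_mem (le e) (ht a).1) (by ring)]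
  have q3 : ∀ a, 3 * pt j P' Λ ∈ col j (P ^ a) Λ := fun a => hΛ.le_col _ (T.symm.mul3 q1)
  have us := fun a => usq (o a).1 (qn T hΛ a) (q3 a)
  have H := fun a => hom3 (o a).1 (o (a + 1)).1 (mem a) (ht a).2.1 (T.mul3 (m1 a))
    (qn T hΛ (a + 1)) (q3 a)
  have g0 : ∀ a, gm (col j (P ^ a) Λ) (pt j P' Λ) (t (a + 1)) ≠ 0 := fun a e =>
    (us a).1 (by rw [(H a).2.1, e, zero_mul])
  have s := fun a => sc (V := V) (hom T hΛ hP h0 a) (o a).1 (piq T hΛ hP h0 a)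
    ((T.tri (o a) ((cm a).1 (((hom T hΛ hP h0 (a + 1)).2 (t (a + h + 1))).1
      (by rw [Nat.add_right_comm]; exact (ht (a + h)).1))) (m1 a) (ht a).2.1).resolve_left
        fun e => (ht (a + h)).2.1 (((hom T hΛ hP h0 a).2 _).2 e))
  refine ⟨t, fun a => (o a).1, mem, fun a => (ht a).2.1, t0 ▸ zero_mem _,
    fun a => hΛ.le_col _ (ht a).2.2, q3 0, qn T hΛ, fun a => ?_⟩
  have := orbit na h3 (u := fun a => uu (col j (P ^ a) Λ) (pt j P' Λ)) g0 (fun a => (us (a + 1)).2.trans (H a).2.2.1)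
    (fun a => (H (a + 1)).2.1.symm.trans (H a).2.2.2) hh hπ (fun a => (s a).1) (fun a => (s a).2) a
  rw [sv_eq (us a).1, map_div₀, this, div_self (V.ne_zero (g0 a))]

end Od

end Vale.Agent.P014Y.C.In
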