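import Vale.Agent.P014Y.C.In.Stp
import Vale.Agent.P014Y.C.In.Od1

/-!
# P014 Y, block INT: CM lattices with three split are ordinary
-/

open Finset Vale.Agent.P027H

namespace Vale.Agent.P014Y.C.In

namespace Od

variable {v : Nv} {q z : ℂ} {Λ : ℕ → Submodule ℤ ℂ} {t : ℕ → ℂ}

theorem le (T : Tw v.V Λ t q) (a : ℕ) (hz : z ∈ Λ 0) : z ∈ Λ a := by
  induction a with
  | zero => exact hz
  | succ a ih => exact (T.mem a z).2 (.inl ih)

theorem shift (T : Tw v.V Λ t q) : Tw v.V (fun a => Λ (a + 1)) (fun a => t (a + 1)) q :=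
  ⟨fun _ => T.lat _, fun _ => T.mem _, fun _ => T.nm _,
    (T.mem 0 _).2 (.inr (.inl (mem_of_eq (zero_mem _) (sub_self _)))), fun _ => le T 1 (T.dbl _),
    le T 1 T.q2, fun _ => T.qn _, fun _ => T.can _⟩

theorem t3 (T : Tw v.V Λ t q) : 3 * t 1 ∈ Λ 0 := mem_of_eq (add_mem (T.dbl 0) T.t0) (by ring)

theorem md (T : Tw v.V Λ t q) : ∃ m : Md v, m.Λ = Λ 0 ∧ m.q = q :=
  Md.ex v (T.lat 0) (T.nm 0) (T.qn 0) (fun e => T.qn 1 ((T.mem 0 _).2 (.inr (.inl e))))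
    (fun e => T.qn 1 ((T.mem 0 _).2 (.inr (.inr e)))) (t3 T) T.q2 (T.can 0)

theorem sp (T : Tw v.V Λ t q) {m : Md v} (h1 : m.Λ = Λ 0) (h2 : m.q = q) :
    ∃ (m' : Md v) (c ε : ℂ), m'.Λ = Λ 1 ∧ m'.q = q ∧ Sp m m' (t 1) c ε := by
  obtain ⟨m', k1, k2⟩ := md (shift T)
  obtain ⟨c, ε, s⟩ := m.sp m' (p := t 1) (by rw [k1, h1]; exact T.mem 0) (h1 ▸ T.nm 0)
    (h1 ▸ t3 T) (k2.trans h2.symm) (by rw [h1, h2]; exact T.can 0)
  exact ⟨m', c, ε, k1, k2, s⟩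

theorem grow (a : ℕ) (T : Tw v.V Λ t q) (m : Md v) (h1 : m.Λ = Λ 0) (h2 : m.q = q)
    (hz : z ∉ Λ (a + 1)) (k : 1 < v.V (m.x z)) :
    ∃ m' : Md v, m'.Λ = Λ (a + 1) ∧ m'.q = q ∧ v.V (m.x z) < v.V (m'.x z) := by
  induction a generalizing Λ t m with
  | zero =>
    obtain ⟨m', c, ε, k1, k2, s⟩ := sp T h1 h2
    exact ⟨m', k1, k2, s.grow (k1 ▸ hz) (not_le.2 k)⟩
  | succ a ih =>
    obtain ⟨m', c, ε, k1, k2, s⟩ := sp T h1 h2
    have := s.grow (z := z) (k1 ▸ fun e => hz (le (shift T) _ e)) (not_le.2 k)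
    obtain ⟨m'', l1, l2, l3⟩ := ih (shift T) m' k1 k2 hz (k.trans this)
    exact ⟨m'', l1, l2, this.trans l3⟩

/-- the absolute value of an embedding -/
noncomputable def nw (ι : ℂ →+* ℂ_[3]) : Nv where
  V := av ι
  na := fun a b => by
    rw [av_apply, map_add]; exact IsUltrametricDist.norm_add_le_max _ _
  three := by
    rw [av_apply, map_ofNat, ← map_ofNat (algebraMap ℚ_[3] ℂ_[3]) 3, norm_algebraMap']
    exact Padic.norm_p_lt_one (p := 3)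

end Od

open Od

theorem ord : ORD := by
  intro ι O _ j P P' Λ h π T hΛ hh hP h0 hπ
  obtain ⟨t, W⟩ := tw T hΛ hP h0 (nw ι).na (nw ι).three hh hπ
  have q1 := (T.cyc'.pt hΛ).1
  have pq := piq T hΛ hP h0 0
  set q := pt j P' Λ
  refine ⟨t, q, W, q1, fun z n hn hz hF => ?_⟩
  by_contra! H
  obtain ⟨m, m1, m2⟩ := md (v := nw ι) W
  have x : ∀ (m : Md (nw ι)) z, (nw ι).V (m.x z) =
      av ι (wp m.Λ z - wp m.Λ m.q) / av ι (3 * wp m.Λ m.q) := fun m z => by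
    rw [Md.x, map_div₀, m.usq]; rfl
  have H0 := hom T hΛ hP h0
  have n1 : ∀ i a, j π ^ i * z ∉ col j (P ^ a) Λ := fun i => by
    induction i with
    | zero => simpa using H
    | succ i ih => exact fun a e => ih (a + h) (((H0 a).2 _).2 (mem_of_eq e (by ring)))
  have g : ∀ w, (∀ a, w ∉ col j (P ^ a) Λ) → 1 < (nw ι).V (m.x w) →
      (nw ι).V (m.x w) < (nw ι).V (m.x (j π * w)) := fun w hw k => by
    obtain ⟨h, rfl⟩ := Nat.exists_eq_succ_of_ne_zero hh.ne'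
    obtain ⟨m', k1, k2, k3⟩ := grow (v := nw ι) h W m m1 m2 (hw _) k
    have e := (H0 0).wp
    have e1 : wp (col j (P ^ 0) Λ) (j π * q) = wp (col j (P ^ 0) Λ) q :=
      pq.elim (W.lat 0).wp_congr (W.lat 0).wp_congr'
    rw [x m (j π * w), m1, m2, ← e1, e, e, zero_add, ← mul_sub, mul_left_comm, map_mul, map_mul,
      mul_div_mul_left _ _ ((av ι).ne_zero (pow_ne_zero 2 (inv_ne_zero h0)))]
    rwa [x m', k1, k2] at k3
  have g0 : 1 < (nw ι).V (m.x z) := by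
    have := hF.resolve_left fun e => H 0 (hΛ.le_col _ e)
    have u := (av ι).pos (pow_ne_zero 2 m.u0)
    rw [m.usq] at u
    rw [x, one_lt_div u, m1, m2]
    rwa [c0 hΛ]
  have g1 : ∀ i, 1 < (nw ι).V (m.x (j π ^ i * z)) := fun i => by
    induction i with
    | zero => simpa using g0
    | succ i ih => rw [pow_succ', mul_assoc]; exact ih.trans (g _ (n1 i) ih)
  have sm : StrictMono fun i => (nw ι).V (m.x (j π ^ i * z)) := strictMono_nat_of_lt_succ fun i => by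
    rw [pow_succ', mul_assoc]; exact g _ (n1 i) (g1 i)
  have n0 : (n : ℂ) ≠ 0 := by exact_mod_cast hn.ne'
  obtain ⟨κ, _, r, R⟩ := exists_reps ((hom_scl (inv_ne_zero n0) Λ).isLat hΛ.1)
    (fun w hw => by rw [mem_scl, inv_inv]; exact nat_mul_mem n hw) hn fun w hw => by
      rwa [mem_scl, inv_inv] at hw
  choose i hi using fun i => R.ex (j π ^ i * z) (by
    rw [mem_scl, inv_inv, mul_left_comm, ← map_pow]; exact hΛ.2 _ _ hz)
  obtain ⟨a, b, ne, e⟩ := Finite.exists_ne_map_eq_of_infinite i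
  refine ne (sm.injective (congrArg _ (m.x_congr ?_)))
  rw [m1, c0 hΛ]
  exact mem_of_eq (sub_mem (hi a) (hi b)) (by rw [e]; ring)

end Vale.Agent.P014Y.C.In
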