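import Vale.Agent.P014Y.C.In.Stp
import Vale.Agent.P014Y.C.In.Rg

/-!
# P014 Y, block INT: averages over the canonical subgroups are integral
-/

open Finset Vale.Agent.P027H Filter Topology

namespace Vale.Agent.P014Y.C.In

open Nv Md

namespace Sp

variable {v : Nv} {m m' : Md v} {p c ε z P : ℂ} (h : Sp m m' p c ε) {f g : ℂ → ℂ}
include h

theorem αO : 4 * c * (1 - 3 * c) ∈ v.O :=
  mul_mem (mul_mem (ofNat_mem _ 4) h.cU.mem) (sub_mem (one_mem _) (mul_mem (ofNat_mem _ 3) h.cU.mem))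

theorem βO : 4 * c * m.b ∈ v.O := mul_mem (mul_mem (ofNat_mem _ 4) h.cU.mem) m.bU.mem

theorem γO : 1 - 6 * c ∈ v.O := sub_mem (one_mem _) (mul_mem (ofNat_mem _ 6) h.cU.mem)

theorem x'O (hz : m.It z) : m'.x z ∈ v.O :=
  O_of_mul (O_eq (add_mem (pow_mem hz.2 3) (mul_mem (ofNat_mem _ 3) (add_mem
    (mul_mem h.αO (pow_mem hz.2 2)) (mul_mem h.βO hz.2))))
    (by linear_combination h.x' (h.nm' hz))) ((h.εU.pow 2).mul ((h.sU hz.2).pow 2))

theorem it (hz : m.It z) : m'.It z := ⟨h.nm' hz, h.x'O hz⟩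

theorem it' (hz : m'.It z) : m.It z := by
  refine ⟨h.nm hz.1, ?_⟩
  by_contra k
  exact k ((h.grow hz.1 k).le.trans hz.2)

theorem cx (hz : m.It z) : m.x z ^ 3 - ε ^ 2 * m'.x z ∈ v.M := by
  have e := h.εU.mem
  have a := hz.2
  have a' := h.x'O hz
  have b1 := h.αO
  have b2 := h.βO
  refine M_eq (three_mul_M (a := ε ^ 2 * m'.x z * ((m.x z + ε ^ 2) * (2 + 3 * (m.x z + ε ^ 2))) -
    (4 * c * (1 - 3 * c) * m.x z ^ 2 + 4 * c * m.b * m.x z)) ?_)
    (by linear_combination -h.x' (h.nm' hz))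
  repeat' first | assumption | exact one_mem _ | exact ofNat_mem _ _ |
    with_reducible apply pow_mem | with_reducible apply sub_mem |
    with_reducible apply add_mem | with_reducible apply mul_mem

theorem cy (hz : m.It z) : m.y z ^ 3 - ε ^ 3 * m'.y z ∈ v.M := by
  have e := h.εU.mem
  have a := hz.2
  have a' := (h.it hz).y
  have b := hz.y
  have b1 := h.γO
  have b2 := m.bU.mem
  refine M_eq (three_mul_M (a := 3 * ε ^ 3 * m'.y z * ((m.x z + ε ^ 2) * (1 + 3 * (m.x z + ε ^ 2) *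
    (1 + (m.x z + ε ^ 2)))) - m.y z * ((1 - 6 * c) * m.x z + m.b) ^ 2) ?_)
    (by linear_combination -h.y' (h.nm' hz))
  repeat' first | assumption | exact one_mem _ | exact ofNat_mem _ _ |
    with_reducible apply pow_mem | with_reducible apply sub_mem |
    with_reducible apply add_mem | with_reducible apply mul_mem

theorem G (hP : m.G P) : m'.G P :=
  ⟨h.nm' hP.it, U.left (b := ε ^ 3) ((hP.2.pow 3).of_sub (M_eq (neg_mem (h.cy hP.it)) (by ring)))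
    (h.it hP.it).y (h.εU.pow 3).mem⟩

omit h in
theorem cube {a b a' b' e : ℂ} (ha : a ∈ v.O) (hb : b ∈ v.O) (he : v.U e) (k1 : a ^ 3 - e * a' ∈ v.M)
    (k2 : b ^ 3 - e * b' ∈ v.M) : a' - b' ∈ v.M ↔ a - b ∈ v.M := by
  have s := sub_mem k1 k2
  refine ⟨fun k => M_cube (M_eq (sub_mem (add_mem s (mul_M he.mem k))
    (three_mul_M (mul_mem (mul_mem ha hb) (sub_mem ha hb)))) (by ring)), fun k => M_of_mul
      (M_eq (sub_mem (M_mul k (add_mem (add_mem (pow_mem ha 2) (mul_mem ha hb)) (pow_mem hb 2))) s)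
        (by ring)) he⟩

theorem D (hP : m.G P) : m'.D P z ↔ m.D P z := by
  have key : m.It z → (m'.D P z ↔ m.D P z) := fun hz =>
    and_congr (iff_of_true (h.nm' hz) hz.1) (and_congr
      (cube hz.2 hP.it.2 (h.εU.pow 2) (h.cx hz) (h.cx hP.it))
      (cube hz.y hP.it.y (h.εU.pow 3) (h.cy hz) (h.cy hP.it)))
  exact ⟨fun k => (key (h.it' ((h.G hP).itD k))).1 k, fun k => (key (hP.itD k)).2 k⟩

theorem ev (hP : m.G P) (hz : m.D P z) : ∀ᶠ w in 𝓝 z, w ∉ m'.Λ := ((h.D hP).2 hz).ev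

theorem rt : m.Rg P fun z => m.x z + ε ^ 2 := Rg.x.add (Rg.c _ (h.εU.pow 2).mem)

theorem rs : m.Rg P fun z => 1 + 3 * (m.x z + ε ^ 2) :=
  (Rg.c _ (one_mem _)).add (h.rt.smul (ofNat_mem _ 3))

theorem rx : m.Rg P fun z => 4 * c * (1 - 3 * c) * m.x z ^ 2 + 4 * c * m.b * m.x z :=
  ((Rg.x.pow 2).smul h.αO).add (Rg.x.smul h.βO)

theorem rr : m.Rg P fun z => m.y z * ((1 - 6 * c) * m.x z + m.b) ^ 2 :=
  Rg.y.mul (((Rg.x.smul h.γO).add (Rg.c _ m.bU.mem)).pow 2)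

theorem pull (hP : m.G P) (hf : m'.Rg P f) : m.Rg P f := by
  have s := h.sU hP.it.2
  induction hf with
  | c a ha => exact Rg.c a ha
  | x =>
    refine (((Rg.x.pow 3).add (h.rx.smul (ofNat_mem _ 3))).div
      ((h.rs.pow 2).smul (h.εU.pow 2).mem) ((h.εU.pow 2).mul (s.pow 2))).congr fun z hz => ?_
    filter_upwards [h.ev hP hz] with w a
    rw [eq_div_iff (mul_ne_zero (h.εU.pow 2).ne (pow_ne_zero 2 (h.s0 a)))]
    linear_combination h.x' a
  | y =>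
    refine (((Rg.y.pow 3).add (h.rr.smul (ofNat_mem _ 3))).div
      ((h.rs.pow 3).smul (h.εU.pow 3).mem) ((h.εU.pow 3).mul (s.pow 3))).congr fun z hz => ?_
    filter_upwards [h.ev hP hz] with w a
    rw [eq_div_iff (mul_ne_zero (h.εU.pow 3).ne (pow_ne_zero 3 (h.s0 a))), ← h.y' a, mul_comm]
  | add _ _ i1 i2 => exact i1.add i2
  | mul _ _ i1 i2 => exact i1.mul i2
  | inv _ hu i1 => exact i1.inv hu
  | congr _ e i1 => exact i1.congr fun z hz => e z ((h.D hP).2 hz)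

end Sp

/-- decomposition along the isogeny -/
def Dec {v : Nv} (m m' : Md v) (P : ℂ) (n : ℕ) (f : ℂ → ℂ) : Prop := ∃ a b d r, m'.Rg P a ∧
  m'.Rg P b ∧ m'.Rg P d ∧ m.Rg P r ∧
    m.E P f fun z => a z + m.x z * b z + m.x z ^ 2 * d z + 3 ^ n * r z

/-- cubes come from the quotient -/
def Cb {v : Nv} (m m' : Md v) (P : ℂ) (f : ℂ → ℂ) : Prop := ∃ a r, m'.Rg P a ∧ m.Rg P r ∧
  m.E P (fun z => f z ^ 3) fun z => a z + 3 * r z

namespace Sp

variable {v : Nv} {m m' : Md v} {p c ε z P : ℂ} (h : Sp m m' p c ε) {f g : ℂ → ℂ} (hP : m.G P)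

theorem _root_.Vale.Agent.P014Y.C.In.Dec.congr {n : ℕ} (hf : Dec m m' P n f) (e : m.E P g f) :
    Dec m m' P n g := by
  obtain ⟨a, b, d, r, ha, hb, hd, hr, e1⟩ := hf
  exact ⟨a, b, d, r, ha, hb, hd, hr, fun z hz => (e z hz).trans (e1 z hz)⟩

theorem _root_.Vale.Agent.P014Y.C.In.Dec.add {n : ℕ} (hf : Dec m m' P n f) (hg : Dec m m' P n g) :
    Dec m m' P n fun z => f z + g z := by
  obtain ⟨a, b, d, r, ha, hb, hd, hr, e1⟩ := hf
  obtain ⟨a', b', d', r', ha', hb', hd', hr', e2⟩ := hg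
  refine ⟨_, _, _, _, ha.add ha', hb.add hb', hd.add hd', hr.add hr', fun z hz => ?_⟩
  filter_upwards [e1 z hz, e2 z hz] with w s t
  linear_combination s + t

theorem dec' {n : ℕ} (hf : m'.Rg P f) : Dec m m' P n f :=
  ⟨f, _, _, _, hf, Rg.c 0 (zero_mem _), Rg.c 0 (zero_mem _), Rg.c 0 (zero_mem _),
    E.of_eq fun z => by ring⟩

theorem dec2 {n : ℕ} (hf : m.Rg P f) : Dec m m' P n fun z => 3 ^ n * f z :=
  ⟨_, _, _, f, Rg.c 0 (zero_mem _), Rg.c 0 (zero_mem _), Rg.c 0 (zero_mem _), hf,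
    E.of_eq fun z => by ring⟩

theorem decx {n : ℕ} : Dec m m' P n m.x :=
  ⟨_, _, _, _, Rg.c 0 (zero_mem _), Rg.c 1 (one_mem _), Rg.c 0 (zero_mem _), Rg.c 0 (zero_mem _),
    E.of_eq fun z => by ring⟩

include h hP

theorem cbx : ∃ r, m.Rg P r ∧ m.E P (fun z => m.x z ^ 3) fun z => ε ^ 2 * m'.x z + 3 * r z := by
  refine ⟨_, (((h.pull hP Rg.x).smul (h.εU.pow 2).mem).mul (h.rt.mul ((Rg.c _ (ofNat_mem _ 2)).add
    (h.rt.smul (ofNat_mem _ 3))))).sub h.rx, fun z hz => ?_⟩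
  filter_upwards [h.ev hP hz] with w a
  linear_combination -h.x' a

theorem cby : ∃ r, m.Rg P r ∧ m.E P (fun z => m.y z ^ 3) fun z => ε ^ 3 * m'.y z + 3 * r z := by
  refine ⟨_, (((h.pull hP Rg.y).smul (mul_mem (ofNat_mem _ 3) (h.εU.pow 3).mem)).mul (h.rt.mul
    ((Rg.c _ (one_mem _)).add ((h.rt.smul (ofNat_mem _ 3)).mul
      ((Rg.c _ (one_mem _)).add h.rt))))).sub h.rr, fun z hz => ?_⟩
  filter_upwards [h.ev hP hz] with w a
  linear_combination -h.y' a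

theorem cb (hf : m.Rg P f) : Cb m m' P f := by
  induction hf with
  | c a ha => exact ⟨_, _, Rg.c _ (pow_mem ha 3), Rg.c 0 (zero_mem _), E.of_eq fun z => by ring⟩
  | x =>
    obtain ⟨r, hr, e⟩ := h.cbx hP
    exact ⟨_, r, Rg.x.smul (h.εU.pow 2).mem, hr, e⟩
  | y =>
    obtain ⟨r, hr, e⟩ := h.cby hP
    exact ⟨_, r, Rg.y.smul (h.εU.pow 3).mem, hr, e⟩
  | add k1 k2 i1 i2 =>
    obtain ⟨a, r, ha, hr, e⟩ := i1
    obtain ⟨a', r', ha', hr', e'⟩ := i2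
    refine ⟨_, _, ha.add ha', (hr.add hr').add ((k1.mul k2).mul (k1.add k2)), fun z hz => ?_⟩
    filter_upwards [e z hz, e' z hz] with w s t
    linear_combination s + t
  | mul k1 k2 i1 i2 =>
    obtain ⟨a, r, ha, hr, e⟩ := i1
    obtain ⟨a', r', ha', hr', e'⟩ := i2
    refine ⟨_, _, ha.mul ha', (hr.mul (k2.pow 3)).add ((h.pull hP ha).mul hr'), fun z hz => ?_⟩
    filter_upwards [e z hz, e' z hz] with w s t
    rw [mul_pow, s, t]; ring
  | @inv f k hu i1 =>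
    obtain ⟨a, r, ha, hr, e⟩ := i1
    have hU : v.U (a P) := (hu.pow 3).of_sub (M_eq (neg_mem (three_mul_M (hr.val hP).1))
      (by linear_combination -(e P hP.D).eq_of_nhds))
    refine ⟨_, _, ha.inv hU, (hr.mul (((k.inv hu).pow 3).mul (h.pull hP (ha.inv hU)))).neg,
      fun z hz => ?_⟩
    filter_upwards [e z hz, k.evne hP hu hz, (h.pull hP ha).evne hP hU hz] with w s t u
    field_simp
    linear_combination -s
  | congr _ e i1 =>
    obtain ⟨a, r, ha, hr, e'⟩ := i1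
    exact ⟨a, r, ha, hr, fun z hz => ((e z hz).pow_const 3).trans (e' z hz)⟩

theorem dec_l {n : ℕ} (hg : m'.Rg P g) (hf : Dec m m' P n f) :
    Dec m m' P n fun z => g z * f z := by
  obtain ⟨a, b, d, r, ha, hb, hd, hr, e⟩ := hf
  refine ⟨_, _, _, _, hg.mul ha, hg.mul hb, hg.mul hd, (h.pull hP hg).mul hr, fun z hz => ?_⟩
  filter_upwards [e z hz] with w s
  rw [s]; ring

theorem dec_x (hf : Dec m m' P 1 f) : Dec m m' P 1 fun z => m.x z * f z := by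
  obtain ⟨a, b, d, r, ha, hb, hd, hr, e⟩ := hf
  obtain ⟨s, hs, e'⟩ := h.cbx hP
  refine ⟨_, _, _, _, (Rg.x.smul (h.εU.pow 2).mem).mul hd, ha, hb,
    (hs.mul (h.pull hP hd)).add (Rg.x.mul hr), fun z hz => ?_⟩
  filter_upwards [e z hz, e' z hz] with w s t
  rw [s]
  linear_combination d w * t

theorem dec_mul (hf : Dec m m' P 1 f) (k : m.Rg P g) (hg : Dec m m' P 1 g) :
    Dec m m' P 1 fun z => f z * g z := by
  obtain ⟨a, b, d, r, ha, hb, hd, hr, e⟩ := hf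
  refine ((((h.dec_l hP ha hg).add (h.dec_l hP hb (h.dec_x hP hg))).add (h.dec_l hP hd
    (h.dec_x hP (h.dec_x hP hg)))).add (dec2 (hr.mul k))).congr fun z hz => ?_
  filter_upwards [e z hz] with w s
  rw [s]; ring

theorem dec_inv (hf : m.Rg P f) (hu : v.U (f P)) (hd : Dec m m' P 1 f) :
    Dec m m' P 1 fun z => (f z)⁻¹ := by
  obtain ⟨a, r, ha, hr, e⟩ := h.cb hP (hf.inv hu)
  refine ((h.dec_l hP ha (h.dec_mul hP hd hf hd)).add (dec2 (hr.mul (hf.mul hf)))).congr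
    fun z hz => ?_
  filter_upwards [e z hz, hf.evne hP hu hz] with w s t
  rw [show a w * (f w * f w) + 3 ^ 1 * (r w * (f w * f w)) = (a w + 3 * r w) * (f w * f w) by ring,
    ← s]
  field_simp

theorem decy : Dec m m' P 1 m.y := by
  obtain ⟨r, hr, e⟩ := h.cby hP
  have u : v.U (m.y P ^ 2) := hP.2.pow 2
  have b := Rg.c (m := m') (P := P) _ m.bU.mem
  have k : Dec m m' P 1 fun z => m.y z ^ 2 := by
    have l := (decx (m := m) (n := 1)).add (dec' b)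
    refine ((h.dec_x hP (h.dec_x hP decx)).add (h.dec_mul hP l (Rg.x.add (Rg.c _ m.bU.mem)) l)).congr
      (E.of_notMem fun z hz => ?_)
    linear_combination m.eqn hz
  refine ((h.dec_l hP (Rg.y.smul (h.εU.pow 3).mem) (h.dec_inv hP (Rg.y.pow 2) u k)).add
    (dec2 (hr.mul ((Rg.y.pow 2).inv u)))).congr fun z hz => ?_
  filter_upwards [e z hz, Rg.y.evne hP hP.2 hz] with w s t
  rw [show ε ^ 3 * m'.y w * (m.y w ^ 2)⁻¹ + 3 ^ 1 * (r w * (m.y w ^ 2)⁻¹) =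
    (ε ^ 3 * m'.y w + 3 * r w) * (m.y w ^ 2)⁻¹ by ring, ← s]
  field_simp

theorem dec1 (hf : m.Rg P f) : Dec m m' P 1 f := by
  induction hf with
  | c a ha => exact dec' (Rg.c a ha)
  | x => exact decx
  | y => exact h.decy hP
  | add _ _ i1 i2 => exact i1.add i2
  | mul _ k i1 i2 => exact h.dec_mul hP i1 k i2
  | inv k hu i1 => exact h.dec_inv hP k hu i1
  | congr _ e i1 => exact i1.congr e

theorem dec (n : ℕ) (hf : m.Rg P f) : Dec m m' P n f := by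
  induction n with
  | zero => exact (dec2 hf).congr (E.of_eq fun z => by ring)
  | succ n ih =>
    obtain ⟨a, b, d, r, ha, hb, hd, hr, e1⟩ := ih
    obtain ⟨a', b', d', r', ha', hb', hd', hr', e2⟩ := h.dec1 hP hr
    have t : (3 : ℂ) ^ n ∈ v.O := pow_mem (ofNat_mem _ 3) n
    refine ⟨_, _, _, _, ha.add (ha'.smul t), hb.add (hb'.smul t), hd.add (hd'.smul t), hr',
      fun z hz => ?_⟩
    filter_upwards [e1 z hz, e2 z hz] with w s t
    rw [s, t]; ring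

theorem Dp (hz : m.D P z) {l : ℂ} (hl : l ∈ m'.Λ) : m.D P (z + l) :=
  (h.D hP).1 (((h.D hP).2 hz).congr (mem_of_eq hl (by ring)))

omit hP in
theorem pm2 : 2 * p ∈ m'.Λ := mem_of_eq (add_mem h.pm h.pm) (by ring)

theorem step (n : ℕ) (hf : m.Rg P f) : ∃ g r, m'.Rg P g ∧ m.Rg P r ∧
    m.E P (fun w => f w + f (w + p) + f (w + 2 * p))
      fun w => 3 * g w + 3 ^ n * (r w + r (w + p) + r (w + 2 * p)) := by
  obtain ⟨a, b, d, r, ha, hb, hd, hr, e1⟩ := h.dec hP n hf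
  have X := Rg.x.smul (m := m') (P := P) (h.εU.pow 2).mem
  have s1 := (X.smul (ofNat_mem _ 3)).sub (Rg.c _ h.αO)
  have s2 := (Rg.c _ h.βO).sub (X.smul (mul_mem (ofNat_mem _ 2)
    (add_mem (one_mem _) (mul_mem (ofNat_mem _ 3) (h.εU.pow 2).mem))))
  refine ⟨_, r, (ha.add (hb.mul s1)).add (hd.mul (((s1.pow 2).smul (ofNat_mem _ 3)).sub
    (s2.smul (ofNat_mem _ 2)))), hr, fun z hz => ?_⟩
  have hz' := (h.D hP).2 hz
  filter_upwards [e1 z hz, shift (e1 _ (h.Dp hP hz h.pm)), shift (e1 _ (h.Dp hP hz h.pm2)),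
    ha.per h.pm z hz', hb.per h.pm z hz', hd.per h.pm z hz', ha.per h.pm2 z hz',
    hb.per h.pm2 z hz', hd.per h.pm2 z hz', hz'.ev] with w t0 t1 t2 a1 b1 d1 a2 b2 d2 n
  rw [t0, t1, t2, a1, b1, d1, a2, b2, d2,
    m.x_congr (z := w + 2 * p) (w := w - p) (mem_of_eq h.p2 (by ring))]
  linear_combination (-b w - d w * (m.x w + m.x (w + p) + m.x (w - p) + 9 * ε ^ 2 * m'.x w -
    12 * c * (1 - 3 * c))) * h.xx w - 2 * d w * h.e2 n

end Sp

end Vale.Agent.P014Y.C.In
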