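import Vale.Agent.P014Y.C.In.Rg

/-!
# P014 Y, block INT: generic base points and the eigenfunction
-/

open Finset Vale.Agent.P027H Filter Topology Polynomial

namespace Vale.Agent.P014Y.C.In

open Nv Md

namespace Tw

variable {V : AbsoluteValue ℂ ℝ} {Λ : ℕ → Submodule ℤ ℂ} {t : ℕ → ℂ} {q : ℂ} (T : Tw V Λ t q)
include T

theorem le1 (a : ℕ) {z : ℂ} (hz : z ∈ Λ a) : z ∈ Λ (a + 1) := (T.mem a z).2 (Or.inl hz)

theorem le (a : ℕ) {z : ℂ} (hz : z ∈ Λ 0) : z ∈ Λ a := by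
  induction a with
  | zero => exact hz
  | succ a ih => exact T.le1 a ih

theorem tm (a : ℕ) : t a ∈ Λ a := by
  cases a with
  | zero => exact T.t0
  | succ a => exact (T.mem a _).2 (Or.inr (Or.inl (mem_of_eq (zero_mem _) (sub_self _))))

theorem shift : Tw V (fun a => Λ (a + 1)) (fun a => t (a + 1)) q :=
  ⟨fun _ => T.lat _, fun _ => T.mem _, fun _ => T.nm _, T.tm 1, fun _ => T.le 1 (T.dbl _),
    T.le 1 T.q2, fun _ => T.qn _, fun _ => T.can _⟩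

theorem three (a : ℕ) : 3 * t (a + 1) ∈ Λ a :=
  mem_of_eq (add_mem (T.le a (T.dbl a)) (T.tm a)) (by ring)

theorem pw (a : ℕ) : 3 ^ a * t (a + 1) - t 1 ∈ Λ 0 := by
  induction a with
  | zero => exact mem_of_eq (zero_mem _) (by ring)
  | succ a ih =>
    exact mem_of_eq (add_mem (nat_mul_mem (3 ^ a) (T.dbl (a + 1))) ih) (by push_cast; ring)

theorem pw0 (a : ℕ) : ((3 ^ a : ℕ) : ℂ) * t a ∈ Λ 0 := by
  cases a with
  | zero => exact mem_of_eq T.t0 (by push_cast; ring)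
  | succ a => exact mem_of_eq (add_mem (nat_mul_mem 3 (T.pw a)) (T.three 0)) (by push_cast; ring)

theorem dvd (a : ℕ) (j : ℕ) (h : (j : ℂ) * t a ∈ Λ 0) : 3 ^ a ∣ j := by
  induction a generalizing j with
  | zero => exact one_dvd _
  | succ a ih =>
    obtain ⟨k, rfl | rfl | rfl⟩ : ∃ k, j = 3 * k ∨ j = 3 * k + 1 ∨ j = 3 * k + 2 := ⟨j / 3, by omega⟩
    · rw [pow_succ']
      exact mul_dvd_mul_left 3 (ih k (mem_of_eq (sub_mem h (nat_mul_mem k (T.dbl a)))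
        (by push_cast; ring)))
    · exact (T.nm a (mem_of_eq (sub_mem (T.le a h) (nat_mul_mem k (T.three a)))
        (by push_cast; ring))).elim
    · exact (T.nm a (mem_of_eq (sub_mem (nat_mul_mem (k + 1) (T.three a)) (T.le a h))
        (by push_cast; ring))).elim

theorem nz {a j : ℕ} (h0 : j ≠ 0) (h : j < 3 ^ a) : (j : ℂ) * t a ∉ Λ 0 := fun e =>
  (Nat.le_of_dvd (Nat.pos_of_ne_zero h0) (T.dvd a j e)).not_gt h

end Tw

section

/-! ### generic points -/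

variable {v : Nv}

theorem exists_scale (v : Nv) {κ : Type} (s : Finset κ) (c : κ → ℂ) (h : ∃ i ∈ s, c i ≠ 0) :
    ∃ i ∈ s, c i ≠ 0 ∧ ∀ k ∈ s, c k / c i ∈ v.O := by
  obtain ⟨i0, h0, h1⟩ := h
  obtain ⟨i, hi, hm⟩ := s.exists_max_image (fun k => v.V (c k)) ⟨i0, h0⟩
  have p : 0 < v.V (c i) := (v.V.pos h1).trans_le (hm i0 h0)
  exact ⟨i, hi, v.V.pos_iff.1 p, fun k hk => by
    rw [mem_O, map_div₀]; exact (div_le_one p).2 (hm k hk)⟩

/-- the ideal of small elements -/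
def Nv.I (v : Nv) : Ideal v.O where
  carrier := {a | (a : ℂ) ∈ v.M}
  add_mem' := fun ha hb => v.M.add_mem ha hb
  zero_mem' := zero_mem v.M
  smul_mem' := fun c _ hb => mul_M c.2 hb

theorem Nv.mem_I {a : v.O} : a ∈ v.I ↔ (a : ℂ) ∈ v.M := Iff.rfl

instance Nv.I_prime (v : Nv) : v.I.IsPrime :=
  ⟨fun e => U.one.not_M (mem_I.1 (show (1 : v.O) ∈ v.I from e ▸ Submodule.mem_top)), fun {a _} h =>
    (U_or a.2).elim (fun k => Or.inr (M_of_mul (M_eq (mem_I.1 h) (mul_comm _ _)) k)) Or.inl⟩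

/-- primitive polynomials -/
def Pm (v : Nv) (F : v.O[X]) : Prop := F.map (Ideal.Quotient.mk v.I) ≠ 0

theorem Pm.mul {F G : v.O[X]} (hF : Pm v F) (hG : Pm v G) : Pm v (F * G) := by
  rw [Pm, Polynomial.map_mul]; exact mul_ne_zero hF hG

theorem Pm.ex {F : v.O[X]} (hF : Pm v F) : ∃ c : v.O, v.U (F.eval c : v.O) := by
  classical
  by_contra! k
  set n := F.natDegree
  have hN : (3 * n + 1 : ℕ) ≠ 0 := by omega
  have hp := Complex.isPrimitiveRoot_exp _ hN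
  set ζ := Complex.exp (2 * Real.pi * Complex.I / (3 * n + 1 : ℕ))
  have zU : v.U ζ := by
    have := congrArg v.V hp.pow_eq_one
    rw [map_pow, map_one] at this
    exact (pow_eq_one_iff_of_nonneg (v.V.nonneg _) hN).1 this
  let φ := Ideal.Quotient.mk v.I
  let η : v.O := ⟨ζ, zU.mem⟩
  have hη : η ^ (3 * n + 1) = 1 := Subtype.ext hp.pow_eq_one
  have inj : ∀ i, 0 < i → i < 3 * n + 1 → φ η ^ i ≠ 1 := fun i h0 h1 e => by
    have g : ∑ k ∈ range (3 * n + 1), (η ^ i) ^ k = 0 := by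
      have : (η ^ i - 1) ≠ 0 := sub_ne_zero.2 fun e' =>
        hp.pow_ne_one_of_pos_of_lt h0.ne' h1 (congrArg Subtype.val e')
      apply mul_right_cancel₀ this
      rw [geom_sum_mul, ← pow_mul, mul_comm, pow_mul, hη, one_pow, sub_self, zero_mul]
    have g' := congrArg φ g
    simp only [map_sum, map_pow, e, one_pow, sum_const, card_range, map_zero, nsmul_eq_mul,
      mul_one] at g'
    rw [← map_natCast φ, Ideal.Quotient.eq_zero_iff_mem] at g'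
    refine (U.one.add (three_mul_M (natCast_mem v.O n))).not_M (M_eq (mem_I.1 g') ?_)
    rw [Subring.coe_natCast]
    push_cast; ring
  have hp' : IsPrimitiveRoot (φ η) (3 * n + 1) := IsPrimitiveRoot.mk_of_lt _ (by omega)
    (by rw [← map_pow, hη, map_one]) inj
  have c1 : ((range (3 * n + 1)).image fun i => φ η ^ i) ⊆ (F.map φ).roots.toFinset := by
    intro x hx
    obtain ⟨i, -, rfl⟩ := mem_image.1 hx
    rw [Multiset.mem_toFinset, mem_roots hF, IsRoot, ← map_pow, eval_map, eval₂_at_apply,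
      Ideal.Quotient.eq_zero_iff_mem]
    exact (U_or (F.eval (η ^ i)).2).resolve_left (k _)
  have c2 := card_le_card c1
  rw [card_image_of_injOn (fun i hi k hk e => hp'.pow_inj (mem_range.1 hi) (mem_range.1 hk) e),
    card_range] at c2
  have c3 := (Multiset.toFinset_card_le _).trans (card_roots' (F.map φ))
  have c4 : (F.map φ).natDegree ≤ n := natDegree_map_le
  omega

end

theorem norm_ne {k : Type} [CommRing k] [IsDomain k] {A B : k[X]} (β : k) (h : A ≠ 0 ∨ B ≠ 0) :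
    A ^ 2 - (X ^ 3 + (X + C β) ^ 2) * B ^ 2 ≠ 0 := by
  intro e
  by_cases hB : B = 0
  · rw [hB] at e
    exact h.elim (fun k => k (pow_eq_zero_iff two_ne_zero |>.1 (by linear_combination e))) fun k => k hB
  have hm : (X ^ 3 + (X + C β) ^ 2 : k[X]).Monic := by monicity!
  have hd : (X ^ 3 + (X + C β) ^ 2 : k[X]).natDegree = 3 := by compute_degree!
  have d := congrArg natDegree (sub_eq_zero.1 e)
  rw [natDegree_mul hm.ne_zero (pow_ne_zero 2 hB), hd, natDegree_pow, natDegree_pow] at d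
  omega

variable {v : Nv} {Λ : ℕ → Submodule ℤ ℂ} {t : ℕ → ℂ} {q P z w : ℂ} {m : Md v} {f g : ℂ → ℂ}

/-- evaluation -/
noncomputable def ev (F : v.O[X]) (z : ℂ) : ℂ := F.eval₂ v.O.subtype z

theorem ev_coe (F : v.O[X]) (c : v.O) : ev F c = (F.eval c : v.O) := eval₂_at_apply v.O.subtype c
theorem ev_mem (F : v.O[X]) (hz : z ∈ v.O) : ev F z ∈ v.O := (ev_coe F ⟨z, hz⟩) ▸ (F.eval _).2
theorem ev_mul (F G : v.O[X]) (z : ℂ) : ev (F * G) z = ev F z * ev G z := eval₂_mul _ _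
theorem ev_U {F G : v.O[X]} (hz : z ∈ v.O) (h : v.U (ev (F * G) z)) : v.U (ev F z) ∧ v.U (ev G z) := by
  rw [ev_mul] at h
  exact ⟨h.left (ev_mem F hz) (ev_mem G hz), (h.eq (mul_comm _ _)).left (ev_mem G hz) (ev_mem F hz)⟩

theorem rg_ev (F : v.O[X]) : m.Rg P fun z => ev F (m.x z) := by
  induction F using Polynomial.induction_on' with
  | add p q hp hq => exact (hp.add hq).eq fun z => eval₂_add _ _
  | monomial n a => exact ((Rg.x.pow n).smul a.2).eq fun z => eval₂_monomial _ _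

theorem Pm.monic {F : v.O[X]} (h : F.Monic) : Pm v F := (h.map _).ne_zero

theorem nf {A B : v.O[X]} (h : Pm v A ∨ Pm v B) : ∃ F, Pm v F ∧ ∀ P, m.It P →
    v.U (ev F (m.x P)) → v.U (ev A (m.x P) + m.y P * ev B (m.x P)) := by
  refine ⟨A ^ 2 - (X ^ 3 + (X + C ⟨m.b, m.bU.mem⟩) ^ 2) * B ^ 2, ?_, fun P hP hU => ?_⟩
  · simpa [Pm] using norm_ne (Ideal.Quotient.mk v.I ⟨m.b, m.bU.mem⟩) h
  · have a := ev_mem A hP.2
    have b := ev_mem B hP.2
    refine U.left (b := ev A (m.x P) - m.y P * ev B (m.x P)) (hU.eq ?_)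
      (add_mem a (mul_mem hP.y b)) (sub_mem a (mul_mem hP.y b))
    simp only [ev, eval₂_sub, eval₂_mul, eval₂_add, eval₂_pow, eval₂_X, eval₂_C, Subring.subtype_apply]
    linear_combination (-(eval₂ v.O.subtype (m.x P) B) ^ 2) * m.eqn hP.1

theorem Md.surj (m : Md v) (c : ℂ) : ∃ P, P ∉ m.Λ ∧ m.x P = c := by
  obtain ⟨y, hy⟩ := IsAlgClosed.exists_pow_nat_eq (4 * (m.u ^ 2 * (c + 1 / 3)) ^ 3 -
    g2 m.Λ * (m.u ^ 2 * (c + 1 / 3)) - g3 m.Λ) two_pos
  obtain ⟨z, h1, h2, -⟩ := m.lat.surj hy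
  rw [m.wp_eq] at h2
  exact ⟨z, h1, add_right_cancel (mul_left_cancel₀ (pow_ne_zero 2 m.u0) h2)⟩

theorem gen1 {s : ℂ} (hs : m.It s) : ∃ F, Pm v F ∧ ∀ P, m.It P → v.U (ev F (m.x P)) →
    m.It (P - s) ∧ m.It (2 * P - s) := by
  let a : v.O := ⟨m.x s, hs.2⟩
  let b : v.O := ⟨m.b, m.bU.mem⟩
  let y : v.O := ⟨m.y (-s), hs.neg.y⟩
  obtain ⟨F, hF, k⟩ := nf (m := m) (A := X ^ 3 - C (3 * a) * X ^ 2 - C (2 * (a + b)) * X - C (2 * b * (a + b)))
    (B := C (2 * y)) (Or.inl (Pm.monic (by monicity!)))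
  refine ⟨(X - C a) * F, (Pm.monic (monic_X_sub_C a)).mul hF, fun P hP hU => ?_⟩
  obtain ⟨u1, u2⟩ := ev_U hP.2 hU
  have u1' : v.U (m.x P - m.x (-s)) := u1.eq (by rw [m.x_neg]; simp [ev, a])
  have i1 : m.It (P - s) := (hP.add hs.neg u1').eq (sub_eq_add_neg _ _)
  have e := m.add' hP.1 hs.neg.1 (sub_ne_zero.1 u1'.ne)
  rw [← sub_eq_add_neg] at e
  have u3 : v.U ((m.x P - m.x (P - s)) * (m.x P - m.x (-s)) ^ 2) := by
    refine (k P hP u2).eq ?_
    simp only [ev, eval₂_sub, eval₂_mul, eval₂_add, eval₂_pow, eval₂_X, eval₂_C, map_mul,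
      map_add, map_ofNat, eval₂_ofNat, Subring.subtype_apply, a, b, y]
    rw [m.x_neg] at e ⊢
    linear_combination -e
  exact ⟨i1, (hP.add i1 (u3.left (sub_mem hP.2 i1.2) (u1'.pow 2).mem)).eq (by ring)⟩

/-- `P` is generic for `S` -/
def Md.Ge (m : Md v) (S : Finset ℂ) (P : ℂ) : Prop :=
  m.G P ∧ ∀ s ∈ S, m.It (P - s) ∧ m.It (2 * P - s)

theorem gen (S : Finset ℂ) (hS : ∀ s ∈ S, m.It s) {F : v.O[X]} (hF : Pm v F) :
    ∃ P, m.Ge S P ∧ v.U (ev F (m.x P)) := by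
  classical
  have : ∃ G, Pm v G ∧ ∀ P, m.It P → v.U (ev G (m.x P)) →
      ∀ s ∈ S, m.It (P - s) ∧ m.It (2 * P - s) := by
    induction S using Finset.induction_on with
    | empty => exact ⟨1, Pm.monic monic_one, fun _ _ _ s hs => absurd hs (notMem_empty s)⟩
    | insert s S _ ih =>
      obtain ⟨G, hG, k⟩ := ih fun s hs => hS s (mem_insert_of_mem hs)
      obtain ⟨G', hG', k'⟩ := gen1 (hS s (mem_insert_self _ _))
      refine ⟨G * G', hG.mul hG', fun P hP hU s' hs' => ?_⟩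
      rcases mem_insert.1 hs' with rfl | h
      · exact k' P hP (ev_U hP.2 hU).2
      · exact k P hP (ev_U hP.2 hU).1 s' h
  obtain ⟨G, hG, k⟩ := this
  obtain ⟨c, hc⟩ := ((Pm.monic (F := X ^ 3 + (X + C ⟨m.b, m.bU.mem⟩) ^ 2) (by monicity!)).mul
    (hF.mul hG)).ex
  obtain ⟨P, h1, h2⟩ := m.surj c
  rw [← ev_coe, ← h2] at hc
  have hP : m.It P := ⟨h1, h2 ▸ c.2⟩
  obtain ⟨u1, u2⟩ := ev_U hP.2 hc
  obtain ⟨u2, u3⟩ := ev_U hP.2 u2
  exact ⟨P, ⟨⟨h1, U_sq (u1.eq (by simp [ev, m.eqn h1, eval₂_pow]))⟩, k P hP u3⟩, u2⟩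

/-- normal form of rational functions -/
def Md.Nf (m : Md v) (f : ℂ → ℂ) : Prop := ∃ A B Q : ℂ[X], Q ≠ 0 ∧ ∀ z, z ∉ m.Λ →
  Q.eval (m.x z) ≠ 0 → f z = (A.eval (m.x z) + m.y z * B.eval (m.x z)) / Q.eval (m.x z)

theorem Md.Nf.add (hf : m.Nf f) (hg : m.Nf g) : m.Nf fun z => f z + g z := by
  obtain ⟨A, B, Q, h0, h⟩ := hf
  obtain ⟨A', B', Q', h0', h'⟩ := hg
  refine ⟨A * Q' + A' * Q, B * Q' + B' * Q, Q * Q', mul_ne_zero h0 h0', fun z hz k => ?_⟩
  rw [eval_mul] at k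
  have k1 := left_ne_zero_of_mul k
  have k2 := right_ne_zero_of_mul k
  simp only [h z hz k1, h' z hz k2, eval_add, eval_mul]
  field_simp; ring

theorem Md.Nf.smul (c : ℂ) (hf : m.Nf f) : m.Nf fun z => c * f z := by
  obtain ⟨A, B, Q, h0, h⟩ := hf
  refine ⟨C c * A, C c * B, Q, h0, fun z hz k => ?_⟩
  simp only [h z hz k, eval_mul, eval_C]
  ring

theorem Md.Nf.sum {κ : Type} (s : Finset κ) {F : κ → ℂ → ℂ} (hF : ∀ i ∈ s, m.Nf (F i)) :
    m.Nf fun z => ∑ i ∈ s, F i z := by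
  classical
  induction s using Finset.induction_on with
  | empty => exact ⟨0, 0, 1, one_ne_zero, fun z _ _ => by simp⟩
  | insert i s hi ih =>
    simp only [sum_insert hi]
    exact (hF i (mem_insert_self _ _)).add (ih fun k hk => hF k (mem_insert_of_mem hk))

theorem nf_tr (w : ℂ) : m.Nf fun z => m.x (z + w) := by
  by_cases hw : w ∈ m.Λ
  · exact ⟨X, 0, 1, one_ne_zero, fun z _ _ => by
      simpa using m.x_congr (mem_of_eq hw (by ring))⟩
  refine ⟨(C (2 * m.b) + X * C (m.x w)) * (X + C (m.x w)) + X * C (2 * m.x w) + C (2 * m.b ^ 2),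
    C (-(2 * m.y w)),
    (X - C (m.x w)) ^ 2, pow_ne_zero 2 (X_sub_C_ne_zero _), fun z hz k => ?_⟩
  simp only [eval_add, eval_mul, eval_sub, eval_pow, eval_X, eval_C] at k ⊢
  rw [eq_div_iff k]
  linear_combination m.add' hz hw (sub_ne_zero.1 (pow_ne_zero_iff two_ne_zero |>.1 k))

theorem lift2 (v : Nv) {A B : ℂ[X]} (h : A ≠ 0 ∨ B ≠ 0) : ∃ (c : ℂ) (A' B' : v.O[X]), c ≠ 0 ∧
    (Pm v A' ∨ Pm v B') ∧ ∀ z, A.eval z = c * ev A' z ∧ B.eval z = c * ev B' z := by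
  classical
  obtain ⟨c, hc, c0, k⟩ := exists_scale v (A.coeffs ∪ B.coeffs) id (by
    rcases h with h | h
    · exact ⟨_, mem_union_left _ (coeff_mem_coeffs (leadingCoeff_ne_zero.2 h)),
        leadingCoeff_ne_zero.2 h⟩
    · exact ⟨_, mem_union_right _ (coeff_mem_coeffs (leadingCoeff_ne_zero.2 h)),
        leadingCoeff_ne_zero.2 h⟩)
  replace c0 : c ≠ 0 := c0
  have L : ∀ D : ℂ[X], (∀ a ∈ D.coeffs, a / c ∈ v.O) → ∃ D' : v.O[X], (c ∈ D.coeffs → Pm v D') ∧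
      ∀ z, D.eval z = c * ev D' z := fun D hD => by
    have : C c⁻¹ * D ∈ lifts v.O.subtype := (lifts_iff_coeff_lifts _).2 fun n => by
      by_cases e : D.coeff n = 0
      · exact ⟨0, by simp [e]⟩
      · exact ⟨⟨_, hD _ (coeff_mem_coeffs e)⟩, by simp [div_eq_inv_mul]⟩
    obtain ⟨D', hD'⟩ := this
    have hD2 : D'.map v.O.subtype = C c⁻¹ * D := hD'
    refine ⟨D', fun hc e => ?_, fun z => ?_⟩
    · obtain ⟨n, -, hn⟩ := mem_coeffs_iff.1 hc
      have a1 := congrArg (coeff · n) hD2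
      have a2 := congrArg (coeff · n) e
      simp only [coeff_map, coeff_C_mul, ← hn, coeff_zero, Ideal.Quotient.eq_zero_iff_mem] at a1 a2
      exact U.one.not_M (M_eq (mem_I.1 a2) ((inv_mul_cancel₀ c0).symm.trans a1.symm))
    · rw [ev, eval₂_eq_eval_map, hD2, eval_mul, eval_C, mul_inv_cancel_left₀ c0]
  obtain ⟨A', a1, a2⟩ := L A fun a ha => k a (mem_union_left _ ha)
  obtain ⟨B', b1, b2⟩ := L B fun a ha => k a (mem_union_right _ ha)
  exact ⟨c, A', B', c0, (mem_union.1 hc).imp a1 b1, fun z => ⟨a2 z, b2 z⟩⟩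

theorem Md.lim (m : Md v) (c : ℂ) :
    Tendsto (fun z => z ^ 2 * (m.x z - c)) (𝓝[≠] 0) (𝓝 (m.u ^ 2)⁻¹) := by
  have a : Tendsto (fun z : ℂ => z ^ 2 * (1 / 3 + c)) (𝓝[≠] 0) (𝓝 (0 ^ 2 * (1 / 3 + c))) :=
    tendsto_nhdsWithin_of_tendsto_nhds (Continuous.tendsto (by fun_prop) 0)
  have := (m.lat.tendsto_wp.const_mul (m.u ^ 2)⁻¹).sub a
  simp only [mul_one, ne_eq, OfNat.ofNat_ne_zero, not_false_eq_true, zero_pow, zero_mul,
    sub_zero] at this
  refine this.congr fun z => ?_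
  have := m.u0
  rw [m.wp_eq]; field_simp; ring

theorem Md.Nf.unit (hf : m.Nf f) {a : ℂ} (a0 : a ≠ 0)
    (hl : Tendsto (fun z => z ^ 2 * f z) (𝓝[≠] 0) (𝓝 a)) : ∃ (c : ℂ) (F : v.O[X]), Pm v F ∧
    ∀ P, m.G P → v.U (ev F (m.x P)) → m.Rg P (fun z => c * f z) ∧ v.U (c * f P) := by
  classical
  obtain ⟨A, B, Q, h0, h⟩ := hf
  have nz : A ≠ 0 ∨ B ≠ 0 := by
    by_contra! k
    have e1 : ∀ᶠ z in 𝓝[≠] (0 : ℂ), ∀ ρ ∈ Q.roots.toFinset, m.x z ≠ ρ :=
      (eventually_all_finset _).2 fun ρ _ => ((m.lim ρ).eventually_ne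
        (inv_ne_zero (pow_ne_zero 2 m.u0))).mono fun z hz e => hz (by rw [e]; ring)
    refine a0 (tendsto_nhds_unique hl (tendsto_const_nhds.congr' ?_))
    filter_upwards [e1, m.lat.notMem_zero] with z k1 k2
    rw [h z k2 fun e => k1 _ (Multiset.mem_toFinset.2 ((mem_roots h0).2 e)) rfl, k.1, k.2]
    simp
  obtain ⟨c, A', B', c0, p, e⟩ := lift2 v nz
  obtain ⟨d, Q', Q2, d0, p', e'⟩ := lift2 v (B := 0) (Or.inl h0)
  obtain ⟨F, hF, k⟩ := nf (m := m) p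
  obtain ⟨F', hF', k'⟩ := nf (m := m) p'
  refine ⟨d / c, F * F', hF.mul hF', fun P hP hU => ?_⟩
  obtain ⟨u1, u2⟩ := ev_U hP.it.2 hU
  have r1 : m.Rg P fun z => ev A' (m.x z) + m.y z * ev B' (m.x z) :=
    (rg_ev A').add (Rg.y.mul (rg_ev B'))
  have q0 : ∀ z, ev Q2 z = 0 := fun z => by
    have := (e' z).2
    rw [eval_zero] at this
    exact (mul_eq_zero.1 this.symm).resolve_left d0
  have u3 : v.U (ev Q' (m.x P)) := (k' P hP.it u2).eq (by rw [q0]; ring)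
  have E : m.E P (fun z => d / c * f z)
      fun z => (ev A' (m.x z) + m.y z * ev B' (m.x z)) / ev Q' (m.x z) := fun z hz => by
    filter_upwards [hz.ev, (rg_ev Q').evne hP u3 hz] with w a b
    rw [h w a (by rw [(e' _).1]; exact mul_ne_zero d0 b), (e _).1, (e _).2, (e' _).1]
    field_simp
  refine ⟨(r1.div (rg_ev Q') u3).congr E, ?_⟩
  rw [(E P hP.D).eq_of_nhds, div_eq_mul_inv]
  exact (k P hP.it u1).mul u3.inv

theorem Tw.eig (T : Tw v.V Λ t q) (h1 : m.Λ = Λ 0) (a : ℕ) {ζ : ℂ} (hζ : ζ ^ 3 ^ a = 1) :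
    ∃ (W : ℂ → ℂ) (F : v.O[X]), Pm v F ∧ (∀ z, W (z + t a) = ζ * W z) ∧
      (∀ z, ∀ l ∈ m.Λ, W (z + l) = W z) ∧
      ∀ P, m.G P → v.U (ev F (m.x P)) → m.Rg P W ∧ v.U (W P) := by
  have z0 : ζ ≠ 0 := by
    rintro rfl
    rw [zero_pow (pow_ne_zero a three_ne_zero)] at hζ
    exact zero_ne_one hζ
  have N : m.Nf fun z => ∑ j ∈ range (3 ^ a), ζ⁻¹ ^ j * m.x (z + j * t a) :=
    Nf.sum _ fun j _ => (nf_tr _).smul _
  have L : Tendsto (fun z => z ^ 2 * ∑ j ∈ range (3 ^ a), ζ⁻¹ ^ j * m.x (z + j * t a)) (𝓝[≠] 0)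
      (𝓝 (∑ j ∈ range (3 ^ a), if j = 0 then (m.u ^ 2)⁻¹ else 0)) := by
    simp only [mul_sum]
    refine tendsto_finsetSum _ fun j hj => ?_
    split_ifs with e
    · simpa [e] using m.lim 0
    · have c : ContinuousAt m.x (0 + j * t a) := by
        rw [zero_add]
        exact (m.ax (h1 ▸ T.nz e (mem_range.1 hj))).continuousAt
      have c' : ContinuousAt (fun z => z ^ 2 * (ζ⁻¹ ^ j * m.x (z + j * t a))) 0 :=
        (continuousAt_id.pow 2).mul (continuousAt_const.mul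
          (ContinuousAt.comp (f := fun z => z + j * t a) c (by fun_prop)))
      have := tendsto_nhdsWithin_of_tendsto_nhds (s := {0}ᶜ) c'.tendsto
      simpa using this
  rw [sum_ite_eq', if_pos (mem_range.2 (by positivity))] at L
  obtain ⟨c, F, hF, k⟩ := N.unit (inv_ne_zero (pow_ne_zero 2 m.u0)) L
  refine ⟨_, F, hF, fun z => ?_, fun z l hl => ?_, k⟩
  · have s1 := sum_range_succ (fun j => ζ⁻¹ ^ j * m.x (z + j * t a)) (3 ^ a)
    have s2 := sum_range_succ' (fun j => ζ⁻¹ ^ j * m.x (z + j * t a)) (3 ^ a)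
    rw [s2, inv_pow ζ (3 ^ a), hζ, m.x_congr (z := z + (3 ^ a : ℕ) * t a) (w := z + (0 : ℕ) * t a)
      (h1 ▸ mem_of_eq (T.pw0 a) (by push_cast; ring)), pow_zero, inv_one, add_left_inj] at s1
    rw [mul_left_comm, ← s1, mul_sum, mul_sum, mul_sum]
    refine sum_congr rfl fun j _ => ?_
    rw [show z + t a + j * t a = z + ((j + 1 : ℕ) : ℂ) * t a by push_cast; ring, pow_succ]
    field_simp
  · exact congrArg _ (sum_congr rfl fun j _ => congrArg _ (m.x_congr (mem_of_eq hl (by ring))))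

end Vale.Agent.P014Y.C.In
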