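import Vale.Agent.P014Y.C.In.Avg
import Vale.Agent.P014Y.C.In.Gen

/-!
# P014 Y, block INT: sums over the tower
-/

open Finset Vale.Agent.P027H Filter Topology Polynomial

namespace Vale.Agent.P014Y.C.In

open Nv Md

variable {v : Nv} {Λ : ℕ → Submodule ℤ ℂ} {t : ℕ → ℂ} {q P z : ℂ} {m : Md v} {f : ℂ → ℂ}

theorem Tw.md (T : Tw v.V Λ t q) : ∃ m : Md v, m.Λ = Λ 0 ∧ m.q = q :=
  Md.ex v (T.lat 0) (T.nm 0) (T.qn 0) (fun e => T.qn 1 ((T.mem 0 _).2 (.inr (.inl e))))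
    (fun e => T.qn 1 ((T.mem 0 _).2 (.inr (.inr e)))) (T.three 0) T.q2 (T.can 0)

theorem Tw.sp (T : Tw v.V Λ t q) (h1 : m.Λ = Λ 0) (h2 : m.q = q) :
    ∃ (m' : Md v) (c ε : ℂ), m'.Λ = Λ 1 ∧ m'.q = q ∧ Sp m m' (t 1) c ε := by
  obtain ⟨m', k1, k2⟩ := T.shift.md
  obtain ⟨c, ε, s⟩ := m.sp m' (p := t 1) (by rw [k1, h1]; exact T.mem 0) (h1 ▸ T.nm 0)
    (h1 ▸ T.three 0) (k2.trans h2.symm) (by rw [h1, h2]; exact T.can 0)
  exact ⟨m', c, ε, k1, k2, s⟩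

theorem Tw.D (T : Tw v.V Λ t q) (h1 : m.Λ = Λ 0) (h2 : m.q = q) (hP : m.G P) (hz : m.D P z)
    (a : ℕ) {l : ℂ} (hl : l ∈ Λ a) : m.D P (z + l) := by
  induction a generalizing Λ t m with
  | zero => exact hz.congr (h1 ▸ mem_of_eq hl (by ring))
  | succ a ih =>
    obtain ⟨m', c, ε, k1, k2, s⟩ := T.sp h1 h2
    exact (s.D hP).1 (ih T.shift k1 k2 (s.G hP) ((s.D hP).2 hz) hl)

theorem Tw.Dj (T : Tw v.V Λ t q) (h1 : m.Λ = Λ 0) (h2 : m.q = q) (hP : m.G P) (hz : m.D P z)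
    (a j : ℕ) : m.D P (z + j * t a) := T.D h1 h2 hP hz a (nat_mul_mem j (T.tm a))

theorem Md.Rg.dsh (hP : m.G P) (hf : m.Rg P f) {l : ℂ} (hz : m.D P (z + l)) :
    HasDerivAt (fun w => f (w + l)) (deriv f (z + l)) z :=
  (hf.an hP hz).differentiableAt.hasDerivAt.comp_add_const z l

theorem Md.Rg.dmem (hP : m.G P) (hf : m.Rg P f) (hz : m.D P z) : deriv f z / m.u ∈ v.O :=
  by have := (hf.der hP).mem hP hz; exact this

theorem alg1 (a : ℕ) (A B : ℂ) :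
    (3 * A + 3 ^ (2 * (a + 1)) * B) / 3 ^ (a + 1) = A / 3 ^ a + 3 ^ (a + 1) * B := by
  field_simp; ring

theorem alg2 (a : ℕ) (A B : ℂ) {u ε : ℂ} (u0 : u ≠ 0) (e0 : ε ≠ 0) :
    (3 * A + 3 ^ (2 * (a + 1)) * B) / (u * 9 ^ (a + 1)) =
      ε * (A / (3 * ε * u * 9 ^ a)) + B / u := by
  rw [pow_mul, show (3 : ℂ) ^ 2 = 9 by norm_num]
  field_simp; ring

theorem Tw.avg (T : Tw v.V Λ t q) (h1 : m.Λ = Λ 0) (h2 : m.q = q) (hP : m.G P) (hf : m.Rg P f)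
    (hz : m.D P z) (a : ℕ) : (∑ j ∈ range (3 ^ a), f (z + j * t a)) / 3 ^ a ∈ v.O ∧
      (∑ j ∈ range (3 ^ a), deriv f (z + j * t a)) / (m.u * 9 ^ a) ∈ v.O := by
  induction a generalizing Λ t m f with
  | zero =>
    have := T.Dj h1 h2 hP hz 0 0
    simp only [pow_zero, range_one, sum_singleton, div_one, mul_one]
    exact ⟨hf.mem hP this, hf.dmem hP this⟩
  | succ a ih =>
    obtain ⟨m', c, ε, k1, k2, s⟩ := T.sp h1 h2
    obtain ⟨g, r, hg, hr, e⟩ := s.step hP (2 * (a + 1)) hf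
    have hz' := (s.D hP).2 hz
    obtain ⟨i1, i2⟩ := ih T.shift k1 k2 (s.G hP) hg hz'
    have Dj := T.Dj h1 h2 hP hz (a + 1)
    have Dp : ∀ j : ℕ, m.D P (z + (j * t (a + 1) + t 1)) := fun j =>
      add_assoc z _ _ ▸ s.Dp hP (Dj j) s.pm
    have Dq : ∀ j : ℕ, m.D P (z + (j * t (a + 1) + 2 * t 1)) := fun j =>
      add_assoc z _ _ ▸ s.Dp hP (Dj j) (mem_of_eq (add_mem s.pm s.pm) (two_mul _))
    have E1 : (fun w => ∑ j ∈ range (3 ^ (a + 1)), f (w + j * t (a + 1))) =ᶠ[𝓝 z] fun w =>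
        3 * ∑ j ∈ range (3 ^ a), g (w + j * t (a + 1)) + 3 ^ (2 * (a + 1)) *
          ∑ j ∈ range (3 ^ a), (r (w + j * t (a + 1)) + r (w + (j * t (a + 1) + t 1)) +
            r (w + (j * t (a + 1) + 2 * t 1))) := by
      have : ∀ j ∈ range (3 ^ a), ∀ᶠ w in 𝓝 z, f (w + j * t (a + 1)) +
          f (w + ((3 ^ a + j : ℕ) : ℂ) * t (a + 1)) +
          f (w + ((3 ^ a + 3 ^ a + j : ℕ) : ℂ) * t (a + 1)) =
            3 * g (w + j * t (a + 1)) + 3 ^ (2 * (a + 1)) * (r (w + j * t (a + 1)) +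
              r (w + (j * t (a + 1) + t 1)) + r (w + (j * t (a + 1) + 2 * t 1))) := fun j _ => by
        have pw : 3 ^ a * t (a + 1) - t 1 ∈ m.Λ := h1 ▸ T.pw a
        have p := hf.per pw _ (Dp j)
        have p' := hf.per (add_mem pw pw) _ (Dq j)
        filter_upwards [Md.shift (e _ (Dj j)), Md.shift p, Md.shift p'] with w a1 a2 a3
        rw [← add_assoc w, ← add_assoc w, ← a1, add_assoc w, add_assoc w, ← a2, ← a3]
        congr 2
        · congr 1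
          push_cast; ring
        · push_cast; ring
      filter_upwards [(eventually_all_finset _).2 this] with w k
      rw [show 3 ^ (a + 1) = 3 ^ a + 3 ^ a + 3 ^ a by ring, sum_range_add, sum_range_add,
        ← sum_add_distrib, ← sum_add_distrib, sum_congr rfl k, sum_add_distrib, mul_sum, mul_sum]
    have R1 : ∑ j ∈ range (3 ^ a), (r (z + j * t (a + 1)) + r (z + (j * t (a + 1) + t 1)) +
        r (z + (j * t (a + 1) + 2 * t 1))) ∈ v.O :=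
      sum_mem fun j _ => add_mem (add_mem (hr.mem hP (Dj j)) (hr.mem hP (Dp j))) (hr.mem hP (Dq j))
    have R2 : (∑ j ∈ range (3 ^ a), (deriv r (z + j * t (a + 1)) +
        deriv r (z + (j * t (a + 1) + t 1)) + deriv r (z + (j * t (a + 1) + 2 * t 1)))) / m.u ∈
          v.O := by
      rw [sum_div]
      refine sum_mem fun j _ => ?_
      rw [add_div, add_div]
      exact add_mem (add_mem (hr.dmem hP (Dj j)) (hr.dmem hP (Dp j))) (hr.dmem hP (Dq j))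
    have d1 := HasDerivAt.fun_sum fun j (_ : j ∈ range (3 ^ (a + 1))) => hf.dsh hP (Dj j)
    have d2 := ((HasDerivAt.fun_sum fun j (_ : j ∈ range (3 ^ a)) =>
      hg.dsh (s.G hP) ((s.D hP).2 (Dj j))).const_mul 3).fun_add
      ((HasDerivAt.fun_sum fun j (_ : j ∈ range (3 ^ a)) => ((hr.dsh hP (Dj j)).fun_add
        (hr.dsh hP (Dp j))).fun_add (hr.dsh hP (Dq j))).const_mul (3 ^ (2 * (a + 1))))
    have u0 := m.u0
    have e0 := s.εU.ne
    constructor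
    · refine O_eq (add_mem i1 (mul_mem (pow_mem (ofNat_mem _ 3) (a + 1)) R1)) ?_
      rw [E1.eq_of_nhds, alg1]
    · refine O_eq (add_mem (mul_mem s.εU.mem i2) R2) ?_
      rw [d1.unique (d2.congr_of_eventuallyEq E1), s.u, alg2 a _ _ u0 e0]

end Vale.Agent.P014Y.C.In
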