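import Vale.Agent.P014Y.C.In.Krg
import Vale.Agent.P014Y.C.In.Twr

/-!
# P014 Y, block INT: the row INT1
-/

open Finset Vale.Agent.P027H Filter Topology Polynomial

namespace Vale.Agent.P014Y.C.In

open Nv Md

variable {v : Nv} {Λ : ℕ → Submodule ℤ ℂ} {t : ℕ → ℂ} {q P z w y : ℂ} {m : Md v} {f g ξ W : ℂ → ℂ}

/-- the Fourier transform over `ℂ` -/
noncomputable def fc (ζ : ℂ) (a : ℕ) (G : ℕ → ℂ) (b : ℤ) : ℂ :=
  (∑ j ∈ range (3 ^ a), ζ ^ (-((j : ℤ) * b)) * G j) / 3 ^ a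

theorem fc_map (ι : ℂ →+* ℂ_[3]) (ζ : ℂ) (a : ℕ) (G : ℕ → ℂ) (b : ℤ) :
    ι (fc ζ a G b) = ft (ι ζ) a (fun j => ι (G j)) b := by
  simp only [fc, ft, div_eq_inv_mul, map_inv₀, map_sum, map_mul, map_zpow₀, map_pow, map_ofNat]

theorem fc_ite (ζ α β : ℂ) (a : ℕ) (H : ℕ → ℂ) (b : ℤ) :
    fc ζ a (fun j => if j = 0 then α else H j) b =
      fc ζ a (fun j => if j = 0 then β else H j) b - (β - α) / 3 ^ a := by
  obtain ⟨n, hn⟩ : ∃ n, 3 ^ a = n + 1 := Nat.exists_eq_succ_of_ne_zero (by positivity)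
  simp only [fc, hn, sum_range_succ', Nat.succ_ne_zero, if_false, if_true, Nat.cast_zero, zero_mul,
    neg_zero, zpow_zero]
  ring

theorem alg3 (a : ℕ) (A B b c k : ℂ) : (A - b * k * B) / 3 ^ a =
    (A - b * c * B) / 3 ^ a + b * (3 * ((c - k) / 3 ^ (a + 1))) * B := by
  field_simp; ring

theorem fc_congr {ζ : ℂ} {a : ℕ} {G G' : ℕ → ℂ} (h : ∀ j < 3 ^ a, G j = G' j) (b : ℤ) :
    fc ζ a G b = fc ζ a G' b := by
  rw [fc, fc, sum_congr rfl fun j hj => by rw [h j (mem_range.1 hj)]]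

theorem fc_sum {ζ : ℂ} {a : ℕ} (hζ : IsPrimitiveRoot ζ (3 ^ a)) (G : ℕ → ℂ) :
    ∑ b ∈ range (3 ^ a), fc ζ a G b = G 0 := by
  have p : 0 < 3 ^ a := by positivity
  simp only [fc]
  rw [← sum_div, sum_comm, sum_eq_single 0 (fun j hj h0 => ?_) fun h => absurd (mem_range.2 p) h]
  · simp
  · have n : (ζ⁻¹ ^ j - 1) ≠ 0 := sub_ne_zero.2 (hζ.inv.pow_ne_one_of_pos_of_lt h0 (mem_range.1 hj))
    have : ∑ b ∈ range (3 ^ a), (ζ⁻¹ ^ j) ^ b = 0 := by
      apply mul_right_cancel₀ n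
      rw [geom_sum_mul, ← pow_mul, mul_comm, pow_mul, hζ.inv.pow_eq_one, one_pow, sub_self, zero_mul]
    rw [← sum_mul, sum_congr rfl (g := fun b => (ζ⁻¹ ^ j) ^ b) fun b _ => by
      rw [← pow_mul, inv_pow, zpow_neg, ← Nat.cast_mul, zpow_natCast], this, zero_mul]

theorem eig_pow {ζ s : ℂ} (h : ∀ z, W (z + s) = ζ * W z) (j : ℕ) (z : ℂ) :
    W (z + j * s) = ζ ^ j * W z := by
  induction j with
  | zero => simp
  | succ j ih => rw [Nat.cast_succ, add_mul, one_mul, ← add_assoc, h, ih]; ring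

theorem Tw.core (T : Tw v.V Λ t q) (h1 : m.Λ = Λ 0) (h2 : m.q = q) (hP : m.G P) {a : ℕ} {ζ : ℂ}
    (z0 : ζ ≠ 0) (hW : m.Rg P W) (hu : v.U (W P)) (e : ∀ z, W (z + t a) = ζ * W z) (hf : m.Rg P f)
    (b : ℤ) : fc ζ a (fun j => f (P + j * t a)) b ∈ v.O ∧
      (fc ζ a (fun j => deriv f (P + j * t a) / m.u) b -
        b * (deriv W P / m.u / W P) * fc ζ a (fun j => f (P + j * t a)) b) / 3 ^ a ∈ v.O := by
  obtain ⟨a1, a2⟩ := T.avg h1 h2 hP (hf.mul (hW.zpow hu (-b))) hP.D a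
  have e1 := eig_pow e
  have e2 : ∀ j : ℕ, deriv W (P + j * t a) = ζ ^ j * deriv W P := fun j => by
    rw [← deriv_comp_add_const, funext (e1 j), deriv_const_mul_field]
  have w0 := hu.ne
  have u0 := m.u0
  have e3 : ∀ j : ℕ, W (P + j * t a) ^ (-b) = W P ^ (-b) * ζ ^ (-((j : ℤ) * b)) := fun j => by
    rw [e1, mul_zpow, ← zpow_natCast, ← zpow_mul, mul_neg, mul_comm]
  have e4 : ∀ j : ℕ, deriv (fun z => f z * W z ^ (-b)) (P + j * t a) = W P ^ (-b) *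
      (ζ ^ (-((j : ℤ) * b)) * (deriv f (P + j * t a) - b * (deriv W P / W P) * f (P + j * t a))) := by
    intro j
    have D := T.Dj h1 h2 hP hP.D a j
    have n := (hW.unit hP hu D).ne
    have d := (hf.an hP D).differentiableAt.hasDerivAt.fun_mul
      ((hasDerivAt_zpow (-b) _ (Or.inl n)).comp _ (hW.an hP D).differentiableAt.hasDerivAt)
    refine d.deriv.trans ?_
    simp only [Function.comp_apply]
    rw [zpow_sub_one₀ n, e3, e2, e1]
    have := pow_ne_zero j z0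
    push_cast
    field_simp
    ring
  constructor
  · refine O_of_mul (O_eq a1 ?_) (hu.zpow (-b))
    rw [fc, div_mul_eq_mul_div, sum_mul]
    exact congrArg (· / _) (sum_congr rfl fun j _ => by rw [e3]; ring)
  · refine O_of_mul (O_eq a2 ?_) (hu.zpow (-b))
    have s1 : ∑ j ∈ range (3 ^ a), deriv (fun z => f z * W z ^ (-b)) (P + j * t a) = W P ^ (-b) *
        (∑ j ∈ range (3 ^ a), ζ ^ (-((j : ℤ) * b)) * deriv f (P + j * t a) - b * (deriv W P / W P) *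
          ∑ j ∈ range (3 ^ a), ζ ^ (-((j : ℤ) * b)) * f (P + j * t a)) := by
      rw [mul_sum, ← sum_sub_distrib, mul_sum]
      exact sum_congr rfl fun j _ => by rw [e4]; ring
    have s2 : ∑ j ∈ range (3 ^ a), ζ ^ (-((j : ℤ) * b)) * (deriv f (P + j * t a) / m.u) =
        (∑ j ∈ range (3 ^ a), ζ ^ (-((j : ℤ) * b)) * deriv f (P + j * t a)) / m.u := by
      simp only [sum_div, mul_div_assoc]
    rw [s1, fc, fc, s2, show (9 : ℂ) ^ a = 3 ^ a * 3 ^ a by rw [← mul_pow]; norm_num]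
    generalize ∑ j ∈ range (3 ^ a), ζ ^ (-((j : ℤ) * b)) * deriv f (P + j * t a) = A
    generalize ∑ j ∈ range (3 ^ a), ζ ^ (-((j : ℤ) * b)) * f (P + j * t a) = B
    field_simp

/-- the tower with its model, roots of unity and a reference point -/
structure Su (m : Md v) (Λ : ℕ → Submodule ℤ ℂ) (t : ℕ → ℂ) (q : ℂ) (ζ : ℕ → ℂ) (R : ℂ) : Prop where
  T : Tw v.V Λ t q
  h1 : m.Λ = Λ 0
  h2 : m.q = q
  pr : ∀ a, IsPrimitiveRoot (ζ a) (3 ^ a)
  sq : ∀ a, ζ (a + 1) ^ 3 = ζ a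
  R : m.G R

/-- admissible constants -/
def Ad (m : Md v) (t ζ : ℕ → ℂ) (a : ℕ) (S : Finset ℂ) (c : ℂ) : Prop := ∃ P W, m.Ge S P ∧ m.Rg P W ∧
  v.U (W P) ∧ (∀ z, W (z + t a) = ζ a * W z) ∧ c = deriv W P / m.u / W P

/-- the approximate period -/
noncomputable def cc (m : Md v) (t ζ : ℕ → ℂ) (R : ℂ) (a : ℕ) : ℂ := 2 * m.y R /
  ∑ b ∈ range (3 ^ a), (b : ℤ) * fc (ζ a) a (fun j => m.x (j * t a + R)) b

namespace Su

variable {ζ : ℕ → ℂ} {R c : ℂ} (s : Su m Λ t q ζ R) {a : ℕ} {S : Finset ℂ}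
include s

theorem z0 (a : ℕ) : ζ a ≠ 0 := (s.pr a).ne_zero (by positivity)

theorem ex (hS : ∀ x ∈ S, m.It x) (a : ℕ) : ∃ c, Ad m t ζ (a + 1) S c ∧ Ad m t ζ a S c := by
  obtain ⟨W, F, hF, e, p, k⟩ := s.T.eig s.h1 (a + 1) (s.pr _).pow_eq_one
  obtain ⟨P, hP, u⟩ := gen S hS hF
  obtain ⟨k1, k2⟩ := k P hP.1 u
  refine ⟨_, ⟨P, W, hP, k1, k2, e, rfl⟩, P, W, hP, k1, k2, fun z => ?_, rfl⟩
  rw [← p _ _ (s.h1 ▸ s.T.dbl a), show z + t a + (3 * t (a + 1) - t a) =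
    z + t (a + 1) + t (a + 1) + t (a + 1) by ring, e, e, e, ← s.sq a]
  ring

theorem use (hc : Ad m t ζ a S c) (hf : ∀ P, m.Ge S P → m.Rg P fun z => f (z - P)) (b : ℤ) :
    c ∈ v.O ∧ fc (ζ a) a (fun j => f (j * t a)) b ∈ v.O ∧
      (fc (ζ a) a (fun j => deriv f (j * t a) / m.u) b -
        b * c * fc (ζ a) a (fun j => f (j * t a)) b) / 3 ^ a ∈ v.O := by
  obtain ⟨P, W, hP, k1, k2, e, rfl⟩ := hc
  have := s.T.core s.h1 s.h2 hP.1 (s.z0 a) k1 k2 e (hf P hP) b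
  simp only [deriv_comp_sub_const, add_sub_cancel_left] at this
  exact ⟨div_O (k1.dmem hP.1 hP.1.D) k2, this⟩

theorem pin (hR : R ∈ S) (hc : Ad m t ζ (a + 1) S c) :
    v.U c ∧ (c - cc m t ζ R (a + 1)) / 3 ^ (a + 1) ∈ v.O := by
  have hf : ∀ P, m.Ge S P → m.Rg P fun z => (fun z => m.x (z + R)) (z - P) := fun P hP => by
    obtain ⟨a, b⟩ := hP.U hR s.R.it
    exact (rg_tr hP.1 a b).eq fun z => congrArg m.x (by ring)
  have k := s.use (f := fun z => m.x (z + R)) hc hf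
  have k1 := sum_mem (t := range (3 ^ (a + 1))) fun (b : ℕ) _ => (k b).2.2
  have k2 := sum_mem (t := range (3 ^ (a + 1))) fun (b : ℕ) _ => mul_mem (intCast_mem _ b) (k b).2.1
  have u0 := m.u0
  simp only [mul_right_comm _ c] at k1
  rw [← sum_div, sum_sub_distrib, fc_sum (s.pr _), ← sum_mul, deriv_comp_add_const, Nat.cast_zero,
    zero_mul, zero_add, (m.dx s.R.1).deriv, mul_div_cancel_left₀ _ u0] at k1
  rw [cc]
  set N := ∑ b ∈ range (3 ^ (a + 1)), ((b : ℤ) : ℂ) * fc (ζ (a + 1)) (a + 1)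
    (fun j => m.x (j * t (a + 1) + R)) b
  have u : v.U (N * c) := s.R.eta.of_sub (M_eq (neg_mem (three_mul_M
    (mul_mem (pow_mem (ofNat_mem _ 3) a) k1))) (by field_simp; ring))
  have uN := u.left k2 (k 0).1
  have := uN.ne
  exact ⟨(u.eq (mul_comm _ _)).left (k 0).1 k2,
    O_eq (neg_mem (div_O k1 uN)) (by field_simp; ring)⟩

theorem ex' (hS : ∀ x ∈ S, m.It x) (a : ℕ) : ∃ c, Ad m t ζ a S c ∧ Ad m t ζ a {R} c ∧ v.U c ∧
    (c - cc m t ζ R (a + 1)) / 3 ^ (a + 1) ∈ v.O := by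
  classical
  obtain ⟨c, h1, P, W, hP, h2⟩ := s.ex (S := insert R S) (by simpa using ⟨s.R.it, hS⟩) a
  exact ⟨c, ⟨P, W, hP.mono (subset_insert _ _), h2⟩, ⟨P, W, hP.mono (by simp), h2⟩,
    s.pin (mem_insert_self _ _) h1⟩

theorem cau (a : ℕ) : v.U (cc m t ζ R (a + 1)) ∧
    (cc m t ζ R (a + 1) - cc m t ζ R (a + 2)) / 3 ^ (a + 1) ∈ v.O := by
  obtain ⟨c, -, h1, h2, h3⟩ := s.ex' (S := ∅) (by simp) (a + 1)
  have h4 := (s.pin (mem_singleton_self R) h1).2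
  refine ⟨h2.of_sub (M_eq (neg_mem (three_mul_M (mul_mem (pow_mem (ofNat_mem _ 3) a) h4)))
    (by field_simp; ring)), O_eq (sub_mem (mul_mem (ofNat_mem _ 3) h3) h4) (by field_simp; ring)⟩

theorem good (hf : m.Gd f) (a : ℕ) (b : ℤ) : fc (ζ a) a (fun j => f (j * t a)) b ∈ v.O ∧
    (fc (ζ a) a (fun j => deriv f (j * t a) / m.u) b -
      b * cc m t ζ R (a + 1) * fc (ζ a) a (fun j => f (j * t a)) b) / 3 ^ a ∈ v.O := by
  obtain ⟨S, hS, k⟩ := hf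
  obtain ⟨c, h1, -, -, h3⟩ := s.ex' hS a
  obtain ⟨-, k1, k2⟩ := s.use h1 k b
  exact ⟨k1, O_eq (add_mem k2 (mul_mem (mul_mem (intCast_mem _ b) (mul_mem (ofNat_mem _ 3) h3)) k1))
    (alg3 ..)⟩

theorem pole {M : Submodule ℤ ℂ} {κ : Type} [Fintype κ] {r : κ → ℂ} (K : Kh m M r ξ f) (a : ℕ)
    (b : ℤ) : fc (ζ a) a (fun j => if j = 0 then cc m t ζ R (a + 1) else
      (ζ a ^ j - 1) * (f (j * t a) / m.u)) b ∈ v.O := by
  obtain ⟨S, hS, k⟩ := K.pole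
  obtain ⟨c, ⟨P, W, hP, k1, k2, e, rfl⟩, -, -, h3⟩ := s.ex' hS a
  obtain ⟨g, hg, k⟩ := k P hP
  obtain ⟨D, hD, eD⟩ := k1.dd hP.1
  have hH := ((hD.mul (Rg.y.add (Rg.c _ hP.1.it.y))).smul k2.inv.mem).add
    (((k1.smul k2.inv.mem).sub (Rg.c 1 (one_mem _))).mul hg)
  have a1 := (s.T.core s.h1 s.h2 hP.1 (s.z0 a) k1 k2 e hH b).1
  have w0 := k2.ne
  have u0 := m.u0
  have d : deriv W P = m.u * (2 * m.y P) * D P := by
    have := ((((m.dx hP.1.1).sub_const (m.x P)).fun_mul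
      (hD.an hP.1 hP.1.D).differentiableAt.hasDerivAt).const_add (W P)).congr_of_eventuallyEq
      (eD P hP.1.D)
    rw [this.deriv]; ring
  rw [fc_congr (G' := fun j => if j = 0 then deriv W P / m.u / W P else
    (ζ a ^ j - 1) * (f (j * t a) / m.u)) fun j hj => ?_] at a1
  · refine O_eq (sub_mem a1 (mul_mem (ofNat_mem _ 3) h3)) ?_
    rw [fc_ite _ _ (deriv W P / m.u / W P), sub_right_inj, pow_succ, mul_div_assoc',
      mul_comm _ (3 : ℂ), mul_div_mul_left _ _ three_ne_zero]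
  · split_ifs with h0
    · rw [h0, Nat.cast_zero, zero_mul, add_zero, d]
      field_simp; ring
    · have Dj := s.T.Dj s.h1 s.h2 hP.1 hP.1.D a j
      obtain ⟨n, e1⟩ := k _ Dj (by rw [add_sub_cancel_left]; exact s.h1 ▸ s.T.nz h0 hj)
      have e2 := (eD _ Dj).eq_of_nhds
      have n' := sub_ne_zero.2 n
      rw [add_sub_cancel_left] at e1
      rw [eig_pow e] at e2
      rw [e1, eig_pow e, show D (P + j * t a) = (ζ a ^ j - 1) * W P / (m.x (P + j * t a) - m.x P) by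
        rw [eq_div_iff n']; linear_combination -e2]
      field_simp

end Su

/-- the absolute value of an embedding -/
noncomputable def nv (ι : ℂ →+* ℂ_[3]) : Nv where
  V := av ι
  na := fun a b => by
    rw [av_apply, map_add]; exact IsUltrametricDist.norm_add_le_max _ _
  three := by
    rw [av_apply, map_ofNat, ← map_ofNat (algebraMap ℚ_[3] ℂ_[3]) 3, norm_algebraMap']
    exact Padic.norm_p_lt_one (p := 3)

theorem nv_le {ι : ℂ →+* ℂ_[3]} {x : ℂ} {a : ℕ} (h : x / 3 ^ a ∈ (nv ι).O) :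
    ‖ι x‖ ≤ ‖(3 : ℂ_[3])‖ ^ a := by
  have h' : ‖ι (x / 3 ^ a)‖ ≤ 1 := h
  rwa [map_div₀, map_pow, map_ofNat, norm_div, norm_pow,
    div_le_one (pow_pos (norm_pos_iff.2 three_ne_zero) _)] at h'

theorem lim_ex {x : ℕ → ℂ_[3]} (h : ∀ a, ‖x a - x (a + 1)‖ ≤ ‖(3 : ℂ_[3])‖ ^ (a + 1))
    (h2 : ‖(3 : ℂ_[3])‖ < 1) : ∃ Ω, ∀ a, ‖Ω - x a‖ ≤ ‖(3 : ℂ_[3])‖ ^ (a + 1) := by
  obtain ⟨Ω, hΩ⟩ := cauchySeq_tendsto_of_complete (cauchySeq_of_le_geometric (f := x) _ ‖(3 : ℂ_[3])‖ h2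
    fun a => by rw [dist_eq_norm]; exact (h a).trans_eq (pow_succ' _ _))
  refine ⟨Ω, fun a => le_of_tendsto ((hΩ.sub_const (x a)).norm) (eventually_atTop.2 ⟨a, fun k hk => ?_⟩)⟩
  induction k, hk using Nat.le_induction with
  | base => simp
  | succ k hk ih =>
    rw [show x (k + 1) - x a = -(x k - x (k + 1)) + (x k - x a) by ring]
    refine (IsUltrametricDist.norm_add_le_max _ _).trans (max_le ?_ ih)
    rw [norm_neg]
    exact (h k).trans (pow_le_pow_of_le_one (norm_nonneg _) h2.le (by omega))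

theorem ft_mul (w c : ℂ_[3]) (a : ℕ) (G : ℕ → ℂ_[3]) (b : ℤ) :
    ft w a (fun j => c * G j) b = c * ft w a G b := by
  simp only [ft, mul_left_comm _ c, ← mul_sum]

theorem int1 : INT1 := by
  intro ι Λ t q ζ T pr sq
  obtain ⟨m, h1, h2⟩ := Tw.md (v := nv ι) T
  obtain ⟨R, hR, -⟩ := gen (m := m) ∅ (by simp) (Pm.monic monic_one)
  have s : Su m Λ t q ζ R := ⟨T, h1, h2, pr, sq, hR.1⟩
  have n2 : ‖(3 : ℂ_[3])‖ < 1 := by simpa [nv, av_apply, map_ofNat] using (nv ι).three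
  obtain ⟨Ω, hΩ⟩ := lim_ex (x := fun a => ι (cc m t ζ R (a + 1)))
    (fun a => by rw [← map_sub]; exact nv_le (s.cau a).2) n2
  have n1 : ‖Ω‖ = 1 := by
    have a : ‖ι (cc m t ζ R 1)‖ = 1 := (s.cau 0).1
    rw [← sub_add_cancel Ω (ι (cc m t ζ R 1)), IsUltrametricDist.norm_add_eq_max_of_norm_ne_norm
      (((hΩ 0).trans_lt (by simpa using n2)).trans_eq a.symm).ne, a]
    exact max_eq_right ((hΩ 0).trans (by simpa using n2.le))
  have u0 : ι m.u ≠ 0 := (map_ne_zero ι).2 m.u0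
  have nΩ : ‖Ω * ι m.u‖ = ‖ι m.u‖ := by rw [norm_mul, n1, one_mul]
  refine ⟨Ω * ι m.u, by rw [← norm_ne_zero_iff, nΩ]; simpa using m.u0, ?_,
    fun M κ _ r ξ f kr c1 c2 c3 => ?_⟩
  · rw [nΩ, ← h1, m.disc, map_mul, norm_mul,
      show ‖ι (16 * m.b ^ 3 * (4 - 27 * m.b))‖ = 1 from m.discU, mul_one, map_pow, norm_pow]
  have fm : ∀ z, ¬ Fm (av ι) (Λ 0) q z → m.It z := fun z k => by
    by_contra k'
    exact k (h1 ▸ h2 ▸ fm_iff.2 k')
  have K : Kh m M r ξ f := ⟨h1 ▸ kr, fun x hx => by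
    by_cases k : Fm (av ι) (Λ 0) q x
    · exact Or.inl (h1 ▸ c1 x hx k)
    · exact Or.inr (fm x k), c2, c3⟩
  have key : ∀ (y : ℂ) (n a : ℕ) (b : ℤ), ft (ι (ζ a)) a
      (fun j => ι (iteratedDeriv n f (y + j * t a))) b = ι m.u ^ (n + 1) * ι (fc (ζ a) a
        (fun j => iteratedDeriv n f (y + j * t a) / m.u ^ (n + 1)) b) := fun y n a b => by
    rw [fc_map, ← ft_mul]
    congr 1 with j
    rw [map_div₀, map_pow, mul_div_cancel₀ _ (pow_ne_zero _ u0)]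
  refine ⟨fun y hy n a b => ?_, fun y hy n a b => ?_, fun a b => ?_⟩
  · rw [key, nΩ, norm_mul, norm_pow]
    exact mul_le_of_le_one_right (by positivity) (s.good (K.gdn (fun x hx => fm _ (hy x hx)) n) a b).1
  · obtain ⟨g1, g2⟩ := s.good (K.gdn (fun x hx => fm _ (hy x hx)) n) a b
    simp only [deriv_div_const, deriv_comp_const_add, ← iteratedDeriv_succ, div_div, ← pow_succ] at g2
    have g3 := nv_le g2
    have g4 : ‖ι _‖ ≤ 1 := g1
    rw [map_sub, map_mul, map_mul, map_intCast] at g3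
    rw [key, key, nΩ]
    set A := ι (fc (ζ a) a (fun j => iteratedDeriv (n + 1) f (y + j * t a) / m.u ^ (n + 1 + 1)) b)
    set B := ι (fc (ζ a) a (fun j => iteratedDeriv n f (y + j * t a) / m.u ^ (n + 1)) b)
    rw [show ι m.u ^ (n + 1 + 1) * A - b * (Ω * ι m.u) * (ι m.u ^ (n + 1) * B) = ι m.u ^ (n + 2) *
      ((A - b * ι (cc m t ζ R (a + 1)) * B) + -(b * ((Ω - ι (cc m t ζ R (a + 1))) * B))) by ring,
      norm_mul, norm_pow, mul_comm]
    refine mul_le_mul_of_nonneg_right ((IsUltrametricDist.norm_add_le_max _ _).trans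
      (max_le g3 ?_)) (by positivity)
    rw [norm_neg, norm_mul, norm_mul]
    exact (mul_le_of_le_one_left (by positivity) (IsUltrametricDist.norm_intCast_le_one _ b)).trans
      ((mul_le_of_le_one_right (norm_nonneg _) g4).trans ((hΩ a).trans
        (pow_le_pow_of_le_one (norm_nonneg _) n2.le (by omega))))
  · have g : ‖ι _‖ ≤ 1 := s.pole K a b
    rw [fc_map] at g
    have e : ft (ι (ζ a)) a (fun j => if j = 0 then Ω * ι m.u else
        (ι (ζ a) ^ j - 1) * ι (f (j * t a))) b = ι m.u * (ft (ι (ζ a)) a (fun j => ι (if j = 0 then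
          cc m t ζ R (a + 1) else (ζ a ^ j - 1) * (f (j * t a) / m.u))) b +
            (Ω - ι (cc m t ζ R (a + 1))) / 3 ^ a) := by
      obtain ⟨n, hn⟩ : ∃ n, 3 ^ a = n + 1 := Nat.exists_eq_succ_of_ne_zero (by positivity)
      rw [mul_add, ← ft_mul]
      simp only [ft, hn, sum_range_succ', Nat.succ_ne_zero, if_false, if_true, Nat.cast_zero,
        zero_mul, neg_zero, zpow_zero, map_mul, map_sub, map_pow, map_one, map_div₀,
        mul_left_comm (ι m.u), mul_div_cancel₀ _ u0]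
      ring
    rw [e, nΩ, norm_mul]
    refine mul_le_of_le_one_right (norm_nonneg _) ((IsUltrametricDist.norm_add_le_max _ _).trans
      (max_le g ?_))
    rw [norm_div, norm_pow, div_le_one (pow_pos (norm_pos_iff.2 three_ne_zero) _)]
    exact (hΩ a).trans (pow_le_pow_of_le_one (norm_nonneg _) n2.le (by omega))

end Vale.Agent.P014Y.C.In
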