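import Vale.Agent.P014Y.C.In.St

/-!
# P014 Y, block INT: the integral model `y² = x³ + (x + b)²`
-/

open Finset Vale.Agent.P027H Filter Topology

namespace Vale.Agent.P014Y.C.In

/-- a non archimedean absolute value over three -/
structure Nv where
  V : AbsoluteValue ℂ ℝ
  na : IsNonarchimedean V
  three : V 3 < 1

namespace Nv

variable (v : Nv) {a b : ℂ}

theorem add_le (a b : ℂ) : v.V (a + b) ≤ max (v.V a) (v.V b) := v.na a b

/-- the integers -/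
def O : Subring ℂ where
  carrier := {z | v.V z ≤ 1}
  mul_mem' := fun {a b} ha hb => by
    show v.V (a * b) ≤ 1
    rw [map_mul]; exact mul_le_one₀ ha (v.V.nonneg _) hb
  one_mem' := by show v.V 1 ≤ 1; rw [map_one]
  add_mem' := fun {a b} ha hb => (v.add_le a b).trans (max_le ha hb)
  zero_mem' := by show v.V 0 ≤ 1; rw [map_zero]; exact zero_le_one
  neg_mem' := fun {a} ha => by show v.V (-a) ≤ 1; rw [AbsoluteValue.map_neg]; exact ha

/-- the maximal ideal -/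
def M : AddSubgroup ℂ where
  carrier := {z | v.V z < 1}
  add_mem' := fun {a b} ha hb => (v.add_le a b).trans_lt (max_lt ha hb)
  zero_mem' := by show v.V 0 < 1; rw [map_zero]; exact zero_lt_one
  neg_mem' := fun {a} ha => by show v.V (-a) < 1; rw [AbsoluteValue.map_neg]; exact ha

/-- units -/
def U (z : ℂ) : Prop := v.V z = 1

variable {v}

theorem mem_O : a ∈ v.O ↔ v.V a ≤ 1 := Iff.rfl
theorem mem_M : a ∈ v.M ↔ v.V a < 1 := Iff.rfl
theorem M_O (h : a ∈ v.M) : a ∈ v.O := (mem_M.1 h).le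
theorem mul_M (ha : a ∈ v.O) (hb : b ∈ v.M) : a * b ∈ v.M := by
  rw [mem_M, map_mul]; exact mul_lt_one_of_nonneg_of_lt_one_right ha (v.V.nonneg _) hb
theorem M_mul (ha : a ∈ v.M) (hb : b ∈ v.O) : a * b ∈ v.M := by rw [mul_comm]; exact mul_M hb ha
theorem three_M : (3 : ℂ) ∈ v.M := v.three
theorem three_mul_M (ha : a ∈ v.O) : 3 * a ∈ v.M := M_mul three_M ha
theorem M_eq (ha : a ∈ v.M) (e : b = a) : b ∈ v.M := e ▸ ha
theorem O_eq (ha : a ∈ v.O) (e : b = a) : b ∈ v.O := e ▸ ha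
theorem U.eq (ha : v.U a) (e : b = a) : v.U b := e ▸ ha
theorem U.mem (h : v.U a) : a ∈ v.O := le_of_eq h
theorem U.ne (h : v.U a) : a ≠ 0 := by
  rintro rfl; rw [U, map_zero] at h; exact zero_ne_one h
theorem U.one : v.U 1 := map_one v.V
theorem U.mul (ha : v.U a) (hb : v.U b) : v.U (a * b) := by rw [U, map_mul, ha, hb, one_mul]
theorem U.inv (ha : v.U a) : v.U a⁻¹ := by rw [U, map_inv₀, ha, inv_one]
theorem U.neg (ha : v.U a) : v.U (-a) := by rw [U, AbsoluteValue.map_neg, ha]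
theorem U.pow (ha : v.U a) (n : ℕ) : v.U (a ^ n) := by rw [U, map_pow, ha, one_pow]
theorem U.zpow (ha : v.U a) (n : ℤ) : v.U (a ^ n) := by rw [U, map_zpow₀, ha, one_zpow]
theorem U.not_M (ha : v.U a) : a ∉ v.M := fun h => (lt_irrefl _ (ha ▸ (mem_M.1 h)))
theorem U_or (ha : a ∈ v.O) : v.U a ∨ a ∈ v.M := (mem_O.1 ha).eq_or_lt
theorem U.add (ha : v.U a) (hb : b ∈ v.M) : v.U (a + b) :=
  (U_or (add_mem ha.mem (M_O hb))).resolve_right fun h =>
    ha.not_M (M_eq (sub_mem h hb) (by ring))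
theorem U.of_sub (ha : v.U a) (hb : b - a ∈ v.M) : v.U b := (ha.add hb).eq (by ring)
theorem U.left (h : v.U (a * b)) (ha : a ∈ v.O) (hb : b ∈ v.O) : v.U a :=
  (U_or ha).resolve_right fun k => h.not_M (M_mul k hb)
theorem M_sq (h : a ^ 2 ∈ v.M) : a ∈ v.M := by
  rw [mem_M, map_pow] at h
  exact (pow_lt_one_iff_of_nonneg (v.V.nonneg _) two_ne_zero).1 h
theorem U_sq (h : v.U (a ^ 2)) : v.U a := by
  rw [U, map_pow] at h
  exact (pow_eq_one_iff_of_nonneg (v.V.nonneg _) two_ne_zero).1 h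
theorem div_O (ha : a ∈ v.O) (hb : v.U b) : a / b ∈ v.O := by
  rw [div_eq_mul_inv]; exact mul_mem ha hb.inv.mem
theorem O_of_mul (h : a * b ∈ v.O) (hb : v.U b) : a ∈ v.O :=
  O_eq (div_O h hb) (by rw [mul_div_cancel_right₀ _ hb.ne])
theorem M_of_mul (h : a * b ∈ v.M) (hb : v.U b) : a ∈ v.M :=
  M_eq (M_mul h hb.inv.mem) (by rw [mul_inv_cancel_right₀ hb.ne])
theorem inv_M (h : a ∉ v.O) : a⁻¹ ∈ v.M := by
  rw [mem_M, map_inv₀]; exact inv_lt_one_of_one_lt₀ (not_le.1 h)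
theorem O_quad (hc : b ∈ v.O) {c : ℂ} (h : a ^ 2 + b * a = c) (hc' : c ∈ v.O) : a ∈ v.O := by
  by_contra k
  have a0 : a ≠ 0 := fun e => k (e ▸ zero_mem _)
  have i := inv_M k
  refine U.one.not_M (M_eq (sub_mem (mul_M hc' (mul_M (M_O i) i)) (mul_M hc i)) ?_)
  rw [← h]; field_simp; ring
theorem two_U : v.U 2 := (U.one.neg.add three_M).eq (by norm_num)
theorem four_U : v.U 4 := (U.one.add three_M).eq (by norm_num)
theorem M_cube (h : a ^ 3 ∈ v.M) : a ∈ v.M := by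
  rw [mem_M, map_pow] at h
  exact (pow_lt_one_iff_of_nonneg (v.V.nonneg _) three_ne_zero).1 h
theorem U_cube (h : v.U (a ^ 3)) : v.U a := by
  rw [U, map_pow] at h
  exact (pow_eq_one_iff_of_nonneg (v.V.nonneg _) three_ne_zero).1 h
theorem O_sq (h : a ^ 2 ∈ v.O) : a ∈ v.O := by
  rw [mem_O, map_pow] at h
  exact (pow_le_one_iff_of_nonneg (v.V.nonneg _) two_ne_zero).1 h
theorem U3 {c n : ℂ} (hc : c ∈ v.O) (hn : n ∈ v.O) : v.U (1 + 3 * n * c) :=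
  (U.one.add (three_mul_M (mul_mem hn hc))).eq (by ring)

end Nv

open Nv

/-- points of order three are flexes -/
theorem flex {Λ : Submodule ℤ ℂ} (h : IsLat Λ) {q : ℂ} (hq : q ∉ Λ) (q3 : 3 * q ∈ Λ) :
    dwp Λ q ≠ 0 ∧ (6 * wp Λ q ^ 2 - g2 Λ / 2) ^ 2 = 12 * wp Λ q * dwp Λ q ^ 2 := by
  have n2 : q + q ∉ Λ := fun e => hq (mem_of_eq (sub_mem q3 e) (by ring))
  refine ⟨fun e => n2 (mem_of_eq ((h.dwp_eq_zero hq).1 e) (by ring)), ?_⟩
  have t1 := hasDerivAt_iff_tendsto_slope.1 (h.hasDerivAt_wp hq)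
  have t2 := hasDerivAt_iff_tendsto_slope.1 (h.hasDerivAt_dwp hq)
  have c1 : Tendsto (wp Λ) (𝓝[≠] q) (𝓝 (wp Λ q)) :=
    tendsto_nhdsWithin_of_tendsto_nhds (h.analyticAt_wp hq).continuousAt
  have c2 : Tendsto (fun z => wp Λ (z + q)) (𝓝[≠] q) (𝓝 (wp Λ (q + q))) :=
    tendsto_nhdsWithin_of_tendsto_nhds (ContinuousAt.comp (f := fun z => z + q)
      (h.analyticAt_wp n2).continuousAt (by fun_prop))
  rw [h.wp_congr' (z := q + q) (w := q) (mem_of_eq q3 (by ring))] at c2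
  have e := tendsto_nhds_unique (t2.pow 2)
    (((((c2.add c1).add_const (wp Λ q)).const_mul 4).mul (t1.pow 2)).congr' ?_)
  · linear_combination e
  filter_upwards [h.ev_ne hq (wp Λ q), nhdsWithin_le_nhds (h.notMem_nhds hq)] with z a b
  have := sub_ne_zero.2 a
  rw [(h.add b hq a).2.1, aX, sl, slope_def_field, slope_def_field]
  field_simp
  ring

/-- a lattice with an integral ordinary model -/
structure Md (v : Nv) where
  Λ : Submodule ℤ ℂ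
  q : ℂ
  u : ℂ
  lat : IsLat Λ
  qn : q ∉ Λ
  q2 : 3 * q ∈ Λ
  u0 : u ≠ 0
  usq : u ^ 2 = 3 * wp Λ q
  b1 : v.U ((12 * wp Λ q ^ 2 - g2 Λ) / (8 * u ^ 4))

namespace Md

variable {v : Nv} (m : Md v) {z w : ℂ}

/-- first coordinate -/
noncomputable def x (z : ℂ) : ℂ := (wp m.Λ z - wp m.Λ m.q) / m.u ^ 2
/-- second coordinate -/
noncomputable def y (z : ℂ) : ℂ := dwp m.Λ z / (2 * m.u ^ 3)
/-- the coefficient -/
noncomputable def b : ℂ := (12 * wp m.Λ m.q ^ 2 - g2 m.Λ) / (8 * m.u ^ 4)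

theorem bU : v.U m.b := m.b1

theorem wp_eq (z : ℂ) : wp m.Λ z = m.u ^ 2 * (m.x z + 1 / 3) := by
  have := m.u0
  rw [x, mul_add, mul_div_cancel₀ _ (pow_ne_zero 2 this)]
  linear_combination (-1 / 3) * m.usq

theorem dwp_eq (z : ℂ) : dwp m.Λ z = m.u ^ 3 * (2 * m.y z) := by
  have := m.u0
  rw [y]; field_simp

theorem xq : m.x m.q = 0 := by rw [x, sub_self, zero_div]

theorem g2_eq : g2 m.Λ = m.u ^ 4 * (4 / 3 - 8 * m.b) := by
  have := m.u0
  have e := m.wp_eq m.q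
  rw [m.xq] at e
  rw [b, e]; field_simp; ring

theorem yq : m.y m.q ^ 2 = m.b ^ 2 := by
  have f := (flex m.lat m.qn m.q2).2
  rw [m.wp_eq, m.dwp_eq, m.xq, m.g2_eq] at f
  apply mul_left_cancel₀ (pow_ne_zero 8 m.u0)
  linear_combination -f / 16

theorem g3_eq : g3 m.Λ = m.u ^ 6 * (8 * m.b / 3 - 4 * m.b ^ 2 - 8 / 27) := by
  have o := m.lat.ode m.qn
  rw [m.wp_eq, m.dwp_eq, m.xq, m.g2_eq] at o
  linear_combination o - 4 * m.u ^ 6 * m.yq

theorem eqn (hz : z ∉ m.Λ) : m.y z ^ 2 = m.x z ^ 3 + (m.x z + m.b) ^ 2 := by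
  have o := m.lat.ode hz
  rw [m.wp_eq, m.dwp_eq, m.g2_eq, m.g3_eq] at o
  apply mul_left_cancel₀ (pow_ne_zero 6 m.u0)
  linear_combination o / 4

theorem disc : g2 m.Λ ^ 3 - 27 * g3 m.Λ ^ 2 = m.u ^ 12 * (16 * m.b ^ 3 * (4 - 27 * m.b)) := by
  rw [m.g2_eq, m.g3_eq]; ring

theorem discU : v.U (16 * m.b ^ 3 * (4 - 27 * m.b)) :=
  (((four_U.pow 2).mul (m.bU.pow 3)).mul (four_U.add (three_mul_M
    (neg_mem (mul_mem (ofNat_mem _ 9) m.bU.mem))))).eq (by ring)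

theorem dx (hz : z ∉ m.Λ) : HasDerivAt m.x (m.u * (2 * m.y z)) z := by
  have := m.u0
  refine (((m.lat.hasDerivAt_wp hz).sub_const (wp m.Λ m.q)).div_const (m.u ^ 2)).congr_deriv ?_
  rw [m.dwp_eq]; field_simp

theorem dy (hz : z ∉ m.Λ) : HasDerivAt m.y (m.u * (3 * m.x z ^ 2 + 2 * m.x z + 2 * m.b)) z := by
  have := m.u0
  refine ((m.lat.hasDerivAt_dwp hz).div_const (2 * m.u ^ 3)).congr_deriv ?_
  rw [m.wp_eq, m.g2_eq]; field_simp; ring

theorem ax (hz : z ∉ m.Λ) : AnalyticAt ℂ m.x z :=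
  ((m.lat.analyticAt_wp hz).sub analyticAt_const).div_const

theorem ay (hz : z ∉ m.Λ) : AnalyticAt ℂ m.y z := (m.lat.analyticAt_dwp hz).div_const

theorem x_congr (h : z - w ∈ m.Λ) : m.x z = m.x w := by rw [x, x, m.lat.wp_congr h]
theorem y_congr (h : z - w ∈ m.Λ) : m.y z = m.y w := by rw [y, y, m.lat.dwp_congr h]
theorem x_neg (z : ℂ) : m.x (-z) = m.x z := by rw [x, x, m.lat.wp_neg]
theorem y_neg (z : ℂ) : m.y (-z) = -m.y z := by rw [y, y, m.lat.dwp_neg, neg_div]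

theorem x_ne (hz : z ∉ m.Λ) (hw : w ∉ m.Λ) (h1 : z - w ∉ m.Λ) (h2 : z + w ∉ m.Λ) :
    m.x z ≠ m.x w := fun e => m.lat.wp_ne hz hw h1 h2 (by rw [m.wp_eq, m.wp_eq w, e])

/-- the slope -/
noncomputable def sl (z w : ℂ) : ℂ := (m.y z - m.y w) / (m.x z - m.x w)

theorem add (hz : z ∉ m.Λ) (hw : w ∉ m.Λ) (h : m.x z ≠ m.x w) : z + w ∉ m.Λ ∧
    m.x (z + w) = m.sl z w ^ 2 - 1 - m.x z - m.x w := by
  have u0 := m.u0
  have h0 := sub_ne_zero.2 h
  have hne : wp m.Λ z ≠ wp m.Λ w := fun e => h (by rw [x, x, e])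
  obtain ⟨h1, h2, -⟩ := m.lat.add hz hw hne
  refine ⟨h1, ?_⟩
  have s : P027H.sl (wp m.Λ z) (dwp m.Λ z) (wp m.Λ w) (dwp m.Λ w) = m.u * (2 * m.sl z w) := by
    rw [P027H.sl, sl, div_eq_iff (sub_ne_zero.2 hne), m.wp_eq z, m.wp_eq w, m.dwp_eq z, m.dwp_eq w]
    field_simp; ring
  rw [aX, s, m.wp_eq (z + w), m.wp_eq z, m.wp_eq w] at h2
  apply mul_left_cancel₀ (pow_ne_zero 2 u0)
  linear_combination h2

theorem add' (hz : z ∉ m.Λ) (hw : w ∉ m.Λ) (h : m.x z ≠ m.x w) :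
    (m.x z - m.x w) ^ 2 * m.x (z + w) = (2 * m.b + m.x z * m.x w) * (m.x z + m.x w) +
      2 * m.x z * m.x w + 2 * m.b ^ 2 - 2 * m.y z * m.y w := by
  have h0 := sub_ne_zero.2 h
  have s : m.sl z w * (m.x z - m.x w) = m.y z - m.y w := div_mul_cancel₀ _ h0
  rw [(m.add hz hw h).2]
  linear_combination (m.sl z w * (m.x z - m.x w) + (m.y z - m.y w)) * s + m.eqn hz + m.eqn hw

theorem dsl (hz : z ∉ m.Λ) (hw : w ∉ m.Λ) (h : m.x z ≠ m.x w) :
    HasDerivAt (fun z => m.sl z w) (m.u * (m.x z - m.x (z + w))) z := by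
  have h0 := sub_ne_zero.2 h
  refine (((m.dy hz).sub_const (m.y w)).div ((m.dx hz).sub_const (m.x w)) h0).congr_deriv ?_
  rw [div_eq_iff (pow_ne_zero 2 h0)]
  linear_combination m.u * m.add' hz hw h - 2 * m.u * m.eqn hz

/-- sum and product of the two translates -/
theorem pm (hz : z ∉ m.Λ) (hw : w ∉ m.Λ) (h : m.x z ≠ m.x w) :
    (m.x z - m.x w) ^ 2 * (m.x (z + w) + m.x (z - w)) = 2 * ((2 * m.b + m.x z * m.x w) *
      (m.x z + m.x w) + 2 * m.x z * m.x w + 2 * m.b ^ 2) ∧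
    (m.x z - m.x w) ^ 2 * (m.x (z + w) * m.x (z - w)) =
      (m.x z * m.x w - 2 * m.b) ^ 2 - 4 * m.b ^ 2 * (m.x z + m.x w + 1) := by
  have e1 := m.add' hz hw h
  have e2 := m.add' hz (w := -w) (fun e => hw (neg_mem_iff.1 e)) (by rwa [m.x_neg])
  rw [m.x_neg, m.y_neg, ← sub_eq_add_neg] at e2
  refine ⟨by linear_combination e1 + e2, ?_⟩
  apply mul_left_cancel₀ (pow_ne_zero 2 (sub_ne_zero.2 h))
  rw [show (m.x z - m.x w) ^ 2 * ((m.x z - m.x w) ^ 2 * (m.x (z + w) * m.x (z - w))) =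
    ((m.x z - m.x w) ^ 2 * m.x (z + w)) * ((m.x z - m.x w) ^ 2 * m.x (z - w)) by ring, e1, e2]
  linear_combination (-4 * m.y w ^ 2) * m.eqn hz -
    4 * (m.x z ^ 3 + (m.x z + m.b) ^ 2) * m.eqn hw

/-- integral points -/
def It (z : ℂ) : Prop := z ∉ m.Λ ∧ m.x z ∈ v.O

variable {m}

theorem It.y (h : m.It z) : m.y z ∈ v.O :=
  O_sq (m.eqn h.1 ▸ add_mem (pow_mem h.2 3) (pow_mem (add_mem h.2 m.bU.mem) 2))

theorem It.neg (h : m.It z) : m.It (-z) := ⟨fun e => h.1 (neg_mem_iff.1 e), by rw [m.x_neg]; exact h.2⟩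

theorem It.congr (h : m.It z) (e : w - z ∈ m.Λ) : m.It w :=
  ⟨fun k => h.1 (mem_of_eq (sub_mem k e) (by ring)), by rw [m.x_congr e]; exact h.2⟩

theorem It.eq (h : m.It z) (e : w = z) : m.It w := e ▸ h

theorem It.sl (hz : m.It z) (hw : m.It w) (h : v.U (m.x z - m.x w)) : m.sl z w ∈ v.O :=
  div_O (sub_mem hz.y hw.y) h

theorem It.add (hz : m.It z) (hw : m.It w) (h : v.U (m.x z - m.x w)) : m.It (z + w) := by
  obtain ⟨h1, h2⟩ := m.add hz.1 hw.1 (sub_ne_zero.1 h.ne)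
  have := hz.sl hw h
  exact ⟨h1, h2 ▸ sub_mem (sub_mem (sub_mem (pow_mem this 2) (one_mem _)) hz.2) hw.2⟩

theorem It.crit (hz : m.It z) (hw : m.It w) (h1 : m.It (z + w)) (h2 : m.It (z - w)) :
    v.U (m.x z - m.x w) := by
  refine (U_or (sub_mem hz.2 hw.2)).resolve_right fun k => ?_
  obtain ⟨e1, e2⟩ := m.pm hz.1 hw.1 (m.x_ne hz.1 hw.1 h2.1 h1.1)
  have k2 : (m.x z - m.x w) ^ 2 ∈ v.M := by rw [sq]; exact M_mul k (M_O k)
  have hb := m.bU.mem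
  have a := hz.2
  have a' := hw.2
  have a1 : m.x z ^ 3 + (m.x z + m.b) ^ 2 ∈ v.M := by
    refine M_of_mul (M_eq (add_mem (M_mul k2 (add_mem h1.2 h2.2)) (M_mul k
      (b := 2 * (2 * m.b + 2 * m.x z ^ 2 + m.x z * m.x w + 2 * m.x z)) ?_)) ?_) four_U
    · repeat' first | assumption | exact ofNat_mem _ _ | with_reducible apply pow_mem |
        with_reducible apply add_mem | with_reducible apply mul_mem
    · linear_combination -e1
  have a2 : m.x z * (m.x z ^ 3 - 4 * m.b * m.x z - 8 * m.b ^ 2) ∈ v.M := by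
    refine M_eq (add_mem (M_mul k2 (mul_mem h1.2 h2.2)) (M_mul k
      (b := m.x z ^ 2 * (m.x z + m.x w) - 4 * m.b * m.x z - 4 * m.b ^ 2) ?_)) ?_
    · repeat' first | assumption | exact ofNat_mem _ _ | with_reducible apply pow_mem |
        with_reducible apply sub_mem | with_reducible apply add_mem | with_reducible apply mul_mem
    · linear_combination -e2
  have a3 : m.x z ∈ v.M := M_cube (M_eq (sub_mem (sub_mem (mul_M a a1) a2) (three_mul_M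
    (mul_mem (mul_mem a hb) (add_mem (mul_mem (ofNat_mem _ 2) a) (mul_mem (ofNat_mem _ 3) hb)))))
    (by ring))
  exact m.bU.not_M (M_sq (M_eq (sub_mem a1 (M_mul a3 (add_mem (add_mem (pow_mem a 2) a)
    (mul_mem (ofNat_mem _ 2) hb)))) (by ring)))

theorem fm_iff : Fm v.V m.Λ m.q z ↔ ¬ m.It z := by
  have p : 0 < v.V (m.u ^ 2) := v.V.pos (pow_ne_zero 2 m.u0)
  rw [Fm, It, not_and_or, not_not, mem_O, not_le, x, map_div₀, lt_div_iff₀ p, one_mul, m.usq]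

end Md

end Vale.Agent.P014Y.C.In
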