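import Vale.Agent.P014Y.C.In.Mod

/-!
# P014 Y, block INT: the canonical isogeny of degree three
-/

open Finset Vale.Agent.P027H Filter Topology

namespace Vale.Agent.P014Y.C.In

open Nv

/-- the relation between two points of order three -/
theorem roots {Λ : Submodule ℤ ℂ} (h : IsLat Λ) {p q : ℂ} (hp : p ∉ Λ) (hq : q ∉ Λ)
    (h1 : q - p ∉ Λ) (h2 : q + p ∉ Λ) (p3 : 3 * p ∈ Λ) (q3 : 3 * q ∈ Λ) :
    wp Λ q - wp Λ p ≠ 0 ∧ dwp Λ q ^ 2 = (wp Λ q - wp Λ p) ^ 3 - 4 * wp Λ q * (wp Λ q - wp Λ p) ^ 2 +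
      (6 * wp Λ q ^ 2 - g2 Λ / 2) * (wp Λ q - wp Λ p) := by
  have n := sub_ne_zero.2 (h.wp_ne hq hp h1 h2)
  have f1 := (flex h hp p3).2
  have f2 := (flex h hq q3).2
  rw [h.ode hp] at f1
  rw [h.ode hq] at f2 ⊢
  exact ⟨n, mul_left_cancel₀ n (by linear_combination (f1 - f2) / 12)⟩

theorem Md.ex (v : Nv) {Λ : Submodule ℤ ℂ} (h : IsLat Λ) {p q : ℂ} (hp : p ∉ Λ) (hq : q ∉ Λ)
    (h1 : q - p ∉ Λ) (h2 : q + p ∉ Λ) (p3 : 3 * p ∈ Λ) (q3 : 3 * q ∈ Λ)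
    (can : v.V (sv Λ q p) = 1) : ∃ m : Md v, m.Λ = Λ ∧ m.q = q := by
  obtain ⟨-, r⟩ := roots h hp hq h1 h2 p3 q3
  obtain ⟨w0, f⟩ := flex h hq q3
  have hs : v.U (sv Λ q p) := can
  have hM : v.U (sv Λ q p ^ 2 - 9 * sv Λ q p + 27) := ((hs.pow 2).add (three_mul_M
    (sub_mem (ofNat_mem _ 9) (mul_mem (ofNat_mem _ 3) hs.mem)))).eq (by ring)
  have A0 : 6 * wp Λ q ^ 2 - g2 Λ / 2 ≠ 0 := fun e => hs.ne (by rw [sv, e]; simp)
  have g : 12 * wp Λ q ^ 2 - g2 Λ = 2 * (6 * wp Λ q ^ 2 - g2 Λ / 2) := by ring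
  refine ⟨⟨Λ, q, (6 * wp Λ q ^ 2 - g2 Λ / 2) / (2 * dwp Λ q), h, hq, q3,
    div_ne_zero A0 (mul_ne_zero two_ne_zero w0), ?_, ((four_U.mul hM).mul (hs.pow 3).inv).eq ?_⟩,
    rfl, rfl⟩
  · rw [div_pow, f]; field_simp; ring
  · have s0 := hs.ne
    rw [g, ← div_eq_mul_inv, eq_div_iff (pow_ne_zero 3 s0), sv]
    generalize 6 * wp Λ q ^ 2 - g2 Λ / 2 = A at *
    generalize wp Λ q - wp Λ p = D at *
    generalize dwp Λ q = w at *
    field_simp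
    linear_combination (-864 * w ^ 2) * r - 288 * D ^ 2 * f

/-- one step of the tower -/
structure Sp {v : Nv} (m m' : Md v) (p c ε : ℂ) : Prop where
  mem : ∀ z, z ∈ m'.Λ ↔ z ∈ m.Λ ∨ z - p ∈ m.Λ ∨ z + p ∈ m.Λ
  pn : p ∉ m.Λ
  p2 : 3 * p ∈ m.Λ
  cU : v.U c
  xp : m.x p = -(1 + 3 * (1 - 6 * c) ^ 2) / 3
  b : m.b = c * (1 + 3 * (1 - 6 * c) ^ 2)
  u : m'.u = 3 * ε * m.u
  ε2 : ε ^ 2 = (1 - 6 * c) ^ 2
  xx : ∀ z, 9 * ε ^ 2 * m'.x z = m.x z + m.x (z + p) + m.x (z - p) + 12 * c * (1 - 3 * c)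

theorem Md.sp {v : Nv} (m m' : Md v) {p : ℂ}
    (mem : ∀ z, z ∈ m'.Λ ↔ z ∈ m.Λ ∨ z - p ∈ m.Λ ∨ z + p ∈ m.Λ)
    (hp : p ∉ m.Λ) (p3 : 3 * p ∈ m.Λ) (hq : m'.q = m.q) (can : v.V (sv m.Λ m.q p) = 1) :
    ∃ c ε, Sp m m' p c ε := by
  have h1 : m.q - p ∉ m.Λ := fun e => m'.qn (hq ▸ (mem _).2 (.inr (.inl e)))
  have h2 : m.q + p ∉ m.Λ := fun e => m'.qn (hq ▸ (mem _).2 (.inr (.inr e)))
  have n := m.x_ne m.qn hp h1 h2
  obtain ⟨s, -⟩ := m.pm m.qn hp n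
  have u0 := m.u0
  have b0 := m.bU.ne
  rw [m.xq] at n s
  have x0 := n.symm
  have f := (flex m.lat hp p3).2
  rw [m.wp_eq, m.dwp_eq, m.g2_eq] at f
  have r : 3 * m.x p ^ 3 + 4 * m.x p ^ 2 + 12 * m.b * m.x p + 12 * m.b ^ 2 = 0 :=
    mul_left_cancel₀ (mul_ne_zero (pow_ne_zero 8 u0) x0)
      (by linear_combination -f / 4 - 4 * m.u ^ 8 * (3 * m.x p + 1) * m.eqn hp)
  obtain ⟨c, hc⟩ : ∃ c, m.b = -3 * c * m.x p := ⟨-m.b / (3 * m.x p), by field_simp⟩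
  have cU : v.U c := by
    have hs : v.U (sv m.Λ m.q p) := can
    refine hs.inv.eq (eq_inv_of_mul_eq_one_left ?_)
    rw [sv, m.dwp_eq, mul_pow, mul_pow, m.yq, m.wp_eq p, m.wp_eq m.q, m.xq, m.g2_eq]
    field_simp
    linear_combination -72 * m.b * hc
  have xp : m.x p = -(1 + 3 * (1 - 6 * c) ^ 2) / 3 := by
    rw [hc] at r
    exact mul_left_cancel₀ (pow_ne_zero 2 x0) (by linear_combination r / 3)
  have s' : m.x (m.q + p) + m.x (m.q - p) = -(12 * c * (1 - 3 * c)) := by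
    rw [hc] at s
    exact mul_left_cancel₀ (pow_ne_zero 2 x0) (by linear_combination s)
  have n2 : p + p ∉ m.Λ := fun e => hp (mem_of_eq (sub_mem p3 e) (by ring))
  have n3 : -p - p ∉ m.Λ := fun e => n2 (mem_of_eq (neg_mem e) (by ring))
  have pm : p ∈ m'.Λ := (mem _).2 (.inr (.inl (mem_of_eq (zero_mem _) (sub_self _))))
  have R : Reps ![0, p, -p] m.Λ m'.Λ := by
    refine ⟨fun z hz => (mem z).2 (.inl hz), fun i => ?_, fun z hz => ?_, fun i k => ?_⟩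
    · fin_cases i
      exacts [zero_mem _, pm, neg_mem pm]
    · rcases (mem z).1 hz with e | e | e
      · exact ⟨0, by simpa using e⟩
      · exact ⟨1, e⟩
      · exact ⟨2, by simpa using e⟩
    · fin_cases i <;> fin_cases k <;> simp [hp, n2, n3]
  have W : ∀ z, wp m'.Λ z =
      m.u ^ 2 * (m.x z + m.x (z + p) + m.x (z - p) - 2 * m.x p + 1 / 3) := fun z => by
    rw [R.wp m.lat m'.lat, Fin.sum_univ_three]
    simp only [Matrix.cons_val_zero, Matrix.cons_val_one, Matrix.cons_val, sub_zero, sub_neg_eq_add]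
    rw [m.lat.wp_mem (zero_mem _), m.lat.wp_neg, m.wp_eq z, m.wp_eq p, m.wp_eq (z + p),
      m.wp_eq (z - p)]
    ring
  have U' := m'.usq
  rw [hq, W, m.xq] at U'
  have hu' : m'.u = 3 * (m'.u / (3 * m.u)) * m.u := by field_simp
  have e2 : (m'.u / (3 * m.u)) ^ 2 = (1 - 6 * c) ^ 2 := by
    rw [div_pow, div_eq_iff (pow_ne_zero 2 (mul_ne_zero three_ne_zero u0))]
    linear_combination U' + 3 * m.u ^ 2 * s' - 6 * m.u ^ 2 * xp
  refine ⟨c, m'.u / (3 * m.u), mem, hp, p3, cU, xp, by rw [hc, xp]; ring, hu', e2, fun z => ?_⟩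
  have := m'.u0
  rw [Md.x, hq, W, W, m.xq]
  field_simp
  linear_combination -27 * s'

namespace Sp

variable {v : Nv} {m m' : Md v} {p c ε z P : ℂ} (h : Sp m m' p c ε)
include h

theorem le (hz : z ∈ m.Λ) : z ∈ m'.Λ := (h.mem z).2 (Or.inl hz)
theorem pm : p ∈ m'.Λ := (h.mem p).2 (.inr (.inl (mem_of_eq (zero_mem _) (sub_self _))))
theorem nm (hz : z ∉ m'.Λ) : z ∉ m.Λ := fun e => hz (h.le e)
theorem εU : v.U ε := U_sq (((U3 h.cU.mem (neg_mem (ofNat_mem _ 2))).pow 2).eq (by rw [h.ε2]; ring))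

theorem sU (hz : m.x z ∈ v.O) : v.U (1 + 3 * (m.x z + ε ^ 2)) :=
  U.one.add (three_mul_M (add_mem hz (h.εU.pow 2).mem))

theorem nm' (hz : m.It z) : z ∉ m'.Λ := fun e => by
  have k : m.x z ≠ m.x p := fun k => (h.sU hz.2).ne (by rw [k, h.xp, h.ε2]; ring)
  rcases (h.mem z).1 e with e | e | e
  · exact hz.1 e
  · exact k (m.x_congr e)
  · exact k ((m.x_congr (w := -p) (mem_of_eq e (by ring))).trans (m.x_neg p))

theorem xne (hz : z ∉ m'.Λ) : m.x z ≠ m.x p := m.x_ne (h.nm hz) h.pn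
  (fun e => hz ((h.mem z).2 (.inr (.inl e)))) fun e => hz ((h.mem z).2 (.inr (.inr e)))

theorem s0 (hz : z ∉ m'.Λ) : 1 + 3 * (m.x z + ε ^ 2) ≠ 0 := fun e =>
  h.xne hz (by rw [h.xp, ← h.ε2]; linear_combination e / 3)

theorem x' (hz : z ∉ m'.Λ) : ε ^ 2 * (1 + 3 * (m.x z + ε ^ 2)) ^ 2 * m'.x z =
    m.x z ^ 3 + 12 * c * (1 - 3 * c) * m.x z ^ 2 + 12 * c * m.b * m.x z := by
  have e := (m.pm (h.nm hz) h.pn (h.xne hz)).1
  have x := h.xx z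
  rw [h.xp, h.b] at e
  rw [h.ε2] at x
  rw [h.b, h.ε2]
  linear_combination (1 + 3 * (m.x z + (1 - 6 * c) ^ 2)) ^ 2 / 9 * x + e

/-- the second symmetric function of the three translates -/
theorem e2 (hz : z ∉ m'.Λ) : m.x z * (m.x (z + p) + m.x (z - p)) + m.x (z + p) * m.x (z - p) =
    12 * c * m.b - 6 * (1 + 3 * ε ^ 2) * ε ^ 2 * m'.x z := by
  obtain ⟨e, e'⟩ := m.pm (h.nm hz) h.pn (h.xne hz)
  have x := h.x' hz
  apply mul_left_cancel₀ (pow_ne_zero 2 (h.s0 hz))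
  rw [h.xp, h.b] at e e'
  rw [h.b, h.ε2] at x ⊢
  linear_combination 9 * m.x z * e + 9 * e' + 6 * (1 + 3 * (1 - 6 * c) ^ 2) * x

theorem y' (hz : z ∉ m'.Λ) : ε ^ 3 * (1 + 3 * (m.x z + ε ^ 2)) ^ 3 * m'.y z =
    m.y z ^ 3 + 3 * (m.y z * ((1 - 6 * c) * m.x z + m.b) ^ 2) := by
  have a := h.nm hz
  have d1 := (((((m.dx a).add_const (ε ^ 2)).const_mul 3).const_add 1).fun_pow 2).const_mul (ε ^ 2)
    |>.fun_mul (m'.dx hz)
  have d2 := (((m.dx a).fun_pow 3).fun_add (((m.dx a).fun_pow 2).const_mul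
    (12 * c * (1 - 3 * c)))).fun_add ((m.dx a).const_mul (12 * c * m.b))
  have e := d1.unique (d2.congr_of_eventuallyEq
    ((m'.lat.notMem_nhds hz).mono fun w hw => h.x' hw))
  rw [h.u] at e
  have x := h.x' hz
  have q := m.eqn a
  have e2 := h.ε2
  rw [h.b] at x q e ⊢
  apply mul_left_cancel₀ m.u0
  push_cast at e
  have e3 : ε ^ 3 = ε * (1 - 6 * c) ^ 2 := by rw [← e2]; ring
  rw [e2] at x e ⊢
  rw [e3]
  linear_combination (1 + 3 * (m.x z + (1 - 6 * c) ^ 2)) / 6 * e - 2 * m.u * m.y z * x -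
    m.u * m.y z * q

theorem grow (hz : z ∉ m'.Λ) (k : m.x z ∉ v.O) : v.V (m.x z) < v.V (m'.x z) := by
  have i := inv_M k
  have x0 : m.x z ≠ 0 := fun e => k (e ▸ zero_mem _)
  have hc := h.cU.mem
  have a1 : 3 + (1 + 3 * ε ^ 2) * (m.x z)⁻¹ ∈ v.M := add_mem three_M
    (mul_M (add_mem (one_mem _) (mul_mem (ofNat_mem _ 3) (h.εU.pow 2).mem)) i)
  have a2 : v.U (1 + (12 * c * (1 - 3 * c) + 12 * c * m.b * (m.x z)⁻¹) * (m.x z)⁻¹) :=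
    U.one.add (mul_M (add_mem (mul_mem (mul_mem (ofNat_mem _ 12) hc) (sub_mem (one_mem _)
      (mul_mem (ofNat_mem _ 3) hc))) (mul_mem (mul_mem (mul_mem (ofNat_mem _ 12) hc) m.bU.mem)
        (M_O i))) i)
  have e : ε ^ 2 * (3 + (1 + 3 * ε ^ 2) * (m.x z)⁻¹) ^ 2 * m'.x z =
      m.x z * (1 + (12 * c * (1 - 3 * c) + 12 * c * m.b * (m.x z)⁻¹) * (m.x z)⁻¹) := by
    have := h.x' hz
    field_simp
    linear_combination this
  have e' := congrArg v.V e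
  rw [map_mul, map_mul, map_mul, h.εU.pow 2, a2, one_mul, mul_one] at e'
  have p0 : 0 < v.V (m'.x z) := by
    refine (v.V.nonneg _).lt_of_ne fun e0 => ?_
    rw [← e0, mul_zero] at e'
    exact (v.V.pos x0).ne e'
  rw [← e']
  exact mul_lt_of_lt_one_left p0 (M_eq (M_mul a1 (M_O a1)) (sq _))

end Sp

end Vale.Agent.P014Y.C.In
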